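import Mathlib

namespace Vale.Agent.EgyptH1

open Finset

/-- Potential function used to select the primes of a modulus. -/
noncomputable def pot {ι : Type*} (Ω : Finset ι) (w : ι → ℝ) (D : ι → ℤ) (θ : ℝ) (A : Finset ℕ) : ℝ :=
  ∑ ω ∈ Ω, w ω * ∏ q ∈ A, (if (q : ℤ) ∣ D ω then 1 + θ else 1)

lemma pot_step {ι : Type*} (Ω : Finset ι) (w : ι → ℝ) (D : ι → ℤ) (θ : ℝ) (P A : Finset ℕ)
    (s : ℕ) (k : ℕ) (hw : ∀ ω ∈ Ω, 0 ≤ w ω) (hθ : 0 ≤ θ)
    (hs : ∀ ω ∈ Ω, (P.filter (fun q : ℕ => (q : ℤ) ∣ D ω)).card ≤ s)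
    (hk : 0 < k) (hP : θ * s * k ≤ ((P \ A).card : ℝ)) (hne : (P \ A).Nonempty) :
    ∃ q ∈ P \ A, pot Ω w D θ (insert q A) ≤ pot Ω w D θ A * (1 + 1 / k) := by
  apply Finset.exists_le_of_sum_le hne
  have h1 : ∀ q ∈ P \ A, pot Ω w D θ (insert q A) =
      ∑ ω ∈ Ω, (w ω * ∏ q ∈ A, (if (q : ℤ) ∣ D ω then 1 + θ else 1)) *
        (if (q : ℤ) ∣ D ω then 1 + θ else 1) := by
    intro q hq
    unfold pot
    refine Finset.sum_congr rfl (fun ω _ => ?_)
    rw [Finset.prod_insert (Finset.mem_sdiff.mp hq).2]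
    ring
  rw [Finset.sum_congr rfl h1, Finset.sum_comm, Finset.sum_const, nsmul_eq_mul]
  have h2 : ∀ ω ∈ Ω, ∑ q ∈ P \ A, (w ω * ∏ q ∈ A, (if (q : ℤ) ∣ D ω then 1 + θ else 1)) *
        (if (q : ℤ) ∣ D ω then 1 + θ else 1) ≤
        (w ω * ∏ q ∈ A, (if (q : ℤ) ∣ D ω then 1 + θ else 1)) * (((P \ A).card : ℝ) + θ * s) := by
    intro ω hω
    rw [← Finset.mul_sum]
    apply mul_le_mul_of_nonneg_left
    · have h3 : ∀ q ∈ P \ A, (if (q : ℤ) ∣ D ω then 1 + θ else 1) =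
          1 + θ * (if (q : ℤ) ∣ D ω then (1 : ℝ) else 0) := by
        intro q _; split_ifs <;> simp
      rw [Finset.sum_congr rfl h3, Finset.sum_add_distrib, Finset.sum_const, nsmul_eq_mul, mul_one,
        ← Finset.mul_sum, ← Finset.sum_filter, Finset.sum_const, nsmul_eq_mul, mul_one]
      gcongr
      have h4 : ((P \ A).filter (fun q : ℕ => (q : ℤ) ∣ D ω)).card ≤ s := by
        refine le_trans (Finset.card_le_card ?_) (hs ω hω)
        exact Finset.filter_subset_filter _ Finset.sdiff_subset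
      exact_mod_cast h4
    · apply mul_nonneg (hw ω hω)
      apply Finset.prod_nonneg
      intro q _
      split_ifs
      · linarith
      · norm_num
  refine (Finset.sum_le_sum h2).trans ?_
  rw [← Finset.sum_mul]
  have h5 : 0 ≤ pot Ω w D θ A := by
    unfold pot
    apply Finset.sum_nonneg
    intro ω hω
    apply mul_nonneg (hw ω hω)
    apply Finset.prod_nonneg
    intro q _
    split_ifs
    · linarith
    · norm_num
  have hk' : (0 : ℝ) < k := by exact_mod_cast hk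
  have h6 : ((P \ A).card : ℝ) + θ * s ≤ ((P \ A).card : ℝ) * (1 + 1 / k) := by
    have : θ * s ≤ ((P \ A).card : ℝ) / k := by
      rw [le_div_iff₀ hk']; exact hP
    calc ((P \ A).card : ℝ) + θ * s ≤ ((P \ A).card : ℝ) + ((P \ A).card : ℝ) / k := by linarith
      _ = _ := by ring
  calc (∑ ω ∈ Ω, w ω * ∏ q ∈ A, (if (q : ℤ) ∣ D ω then 1 + θ else 1)) * (((P \ A).card : ℝ) + θ * s)
      = pot Ω w D θ A * (((P \ A).card : ℝ) + θ * s) := rfl
    _ ≤ pot Ω w D θ A * (((P \ A).card : ℝ) * (1 + 1 / k)) := mul_le_mul_of_nonneg_left h6 h5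
    _ = _ := by ring

lemma pot_greedy {ι : Type*} (Ω : Finset ι) (w : ι → ℝ) (D : ι → ℤ) (θ : ℝ) (P : Finset ℕ)
    (s : ℕ) (k : ℕ) (hw : ∀ ω ∈ Ω, 0 ≤ w ω) (hθ : 0 ≤ θ)
    (hs : ∀ ω ∈ Ω, (P.filter (fun q : ℕ => (q : ℤ) ∣ D ω)).card ≤ s)
    (hk : 0 < k) (hP : θ * s * k + k ≤ (P.card : ℝ)) :
    ∀ j ≤ k, ∃ A ⊆ P, A.card = j ∧ pot Ω w D θ A ≤ (∑ ω ∈ Ω, w ω) * (1 + 1 / (k : ℝ)) ^ j := by
  intro j
  induction j with
  | zero =>
    intro _
    exact ⟨∅, Finset.empty_subset _, rfl, by simp [pot]⟩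
  | succ j ih =>
    intro hj
    obtain ⟨A, hAP, hAc, hA⟩ := ih (by omega)
    have hk' : (0 : ℝ) < k := by exact_mod_cast hk
    have hcard : ((P \ A).card : ℝ) = (P.card : ℝ) - j := by
      rw [Finset.card_sdiff_of_subset hAP, Nat.cast_sub (Finset.card_le_card hAP), hAc]
    have hjk : (j : ℝ) + 1 ≤ k := by exact_mod_cast hj
    have h0 : 0 ≤ θ * s * k := by positivity
    have hne : (P \ A).Nonempty := by
      rw [← Finset.card_pos]
      have : (0 : ℝ) < ((P \ A).card : ℝ) := by rw [hcard]; linarith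
      exact_mod_cast this
    obtain ⟨q, hq, hqle⟩ := pot_step Ω w D θ P A s k hw hθ hs hk (by rw [hcard]; linarith) hne
    refine ⟨insert q A, ?_, ?_, ?_⟩
    · exact Finset.insert_subset (Finset.mem_sdiff.mp hq).1 hAP
    · rw [Finset.card_insert_of_notMem (Finset.mem_sdiff.mp hq).2, hAc]
    · refine hqle.trans ?_
      rw [pow_succ, ← mul_assoc]
      apply mul_le_mul_of_nonneg_right hA
      positivity

/-- Selection lemma. -/
lemma select {ι : Type*} (Ω : Finset ι) (w : ι → ℝ) (D : ι → ℤ) (θ : ℝ) (P : Finset ℕ)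
    (s : ℕ) (k : ℕ) (hw : ∀ ω ∈ Ω, 0 ≤ w ω) (hθ : 0 < θ)
    (hs : ∀ ω ∈ Ω, (P.filter (fun q : ℕ => (q : ℤ) ∣ D ω)).card ≤ s)
    (hk : 0 < k) (hP : θ * s * k + k ≤ (P.card : ℝ)) :
    ∃ A ⊆ P, A.card = k ∧ ∀ B ⊆ A,
      ∑ ω ∈ Ω.filter (fun ω => ∀ q ∈ B, (q : ℤ) ∣ D ω), w ω ≤ 3 * (∑ ω ∈ Ω, w ω) / θ ^ B.card := by
  obtain ⟨A, hAP, hAc, hA⟩ := pot_greedy Ω w D θ P s k hw hθ.le hs hk hP k le_rfl
  refine ⟨A, hAP, hAc, ?_⟩
  intro B hBA
  have hW : 0 ≤ ∑ ω ∈ Ω, w ω := Finset.sum_nonneg hw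
  have hk' : (0 : ℝ) < k := by exact_mod_cast hk
  have h1 : (1 + 1 / (k : ℝ)) ^ k ≤ 3 := by
    have h2 : 1 + 1 / (k : ℝ) ≤ Real.exp (1 / k) := by
      have := Real.add_one_le_exp (1 / (k : ℝ)); linarith
    calc (1 + 1 / (k : ℝ)) ^ k ≤ (Real.exp (1 / k)) ^ k := pow_le_pow_left₀ (by positivity) h2 _
      _ = Real.exp 1 := by
        rw [← Real.exp_nat_mul]; congr 1; field_simp
      _ ≤ 3 := by have := Real.exp_one_lt_d9; linarith
  rw [le_div_iff₀ (by positivity)]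
  calc (∑ ω ∈ Ω.filter (fun ω => ∀ q ∈ B, (q : ℤ) ∣ D ω), w ω) * θ ^ B.card
      = ∑ ω ∈ Ω.filter (fun ω => ∀ q ∈ B, (q : ℤ) ∣ D ω), w ω * θ ^ B.card := by
        rw [Finset.sum_mul]
    _ ≤ ∑ ω ∈ Ω.filter (fun ω => ∀ q ∈ B, (q : ℤ) ∣ D ω),
          w ω * ∏ q ∈ A, (if (q : ℤ) ∣ D ω then 1 + θ else 1) := by
        apply Finset.sum_le_sum
        intro ω hω
        rw [Finset.mem_filter] at hω
        apply mul_le_mul_of_nonneg_left _ (hw ω hω.1)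
        have h3 : ∏ q ∈ A, (if (q : ℤ) ∣ D ω then 1 + θ else 1) =
            (∏ q ∈ A \ B, (if (q : ℤ) ∣ D ω then 1 + θ else 1)) *
            ∏ q ∈ B, (if (q : ℤ) ∣ D ω then 1 + θ else 1) :=
          (Finset.prod_sdiff hBA).symm
        rw [h3]
        have h4 : (1 : ℝ) ≤ ∏ q ∈ A \ B, (if (q : ℤ) ∣ D ω then 1 + θ else 1) := by
          have : ∀ q ∈ A \ B, (1 : ℝ) ≤ (if (q : ℤ) ∣ D ω then 1 + θ else 1) := by
            intro q _; split_ifs <;> linarith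
          calc (1 : ℝ) = ∏ _q ∈ A \ B, (1 : ℝ) := by simp
            _ ≤ _ := Finset.prod_le_prod (fun _ _ => zero_le_one) this
        have h5 : θ ^ B.card ≤ ∏ q ∈ B, (if (q : ℤ) ∣ D ω then 1 + θ else 1) := by
          rw [← Finset.prod_const]
          apply Finset.prod_le_prod (fun _ _ => hθ.le)
          intro q hq
          rw [if_pos (hω.2 q hq)]; linarith
        calc θ ^ B.card ≤ 1 * ∏ q ∈ B, (if (q : ℤ) ∣ D ω then 1 + θ else 1) := by linarith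
          _ ≤ _ := by
            apply mul_le_mul_of_nonneg_right h4
            exact le_trans (by positivity) h5
    _ ≤ pot Ω w D θ A := by
        unfold pot
        apply Finset.sum_le_sum_of_subset_of_nonneg (Finset.filter_subset _ _)
        intro ω hω _
        apply mul_nonneg (hw ω hω)
        apply Finset.prod_nonneg
        intro q _
        split_ifs
        · linarith
        · norm_num
    _ ≤ (∑ ω ∈ Ω, w ω) * (1 + 1 / (k : ℝ)) ^ k := hA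
    _ ≤ (∑ ω ∈ Ω, w ω) * 3 := mul_le_mul_of_nonneg_left h1 hW
    _ = _ := by ring

end Vale.Agent.EgyptH1
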