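import Mathlib

namespace Vale.Agent.EgyptH1

open Finset

variable {Q : ℕ} [NeZero Q]

/-- the bilinear exponential sum -/
noncomputable def S (U V : Finset ℕ) (a : ZMod Q) : ℂ :=
  ∑ u ∈ U, ∑ v ∈ V, ZMod.stdAddChar (a * (u : ZMod Q) * (v : ZMod Q))

/-- number of pairs with `a u = a u'` -/
def E (U : Finset ℕ) (a : ZMod Q) : ℕ :=
  ((U ×ˢ U).filter (fun p => a * (p.1 : ZMod Q) = a * (p.2 : ZMod Q))).card

/-- kernel size -/
def ker (a : ZMod Q) : ℕ := ((Finset.univ : Finset (ZMod Q)).filter (fun c => a * c = 0)).card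

lemma sum_char (t : ZMod Q) :
    ∑ i : ZMod Q, (ZMod.stdAddChar (i * t) : ℂ) = if t = 0 then (Q : ℂ) else 0 := by
  have := AddChar.sum_mulShift (R := ZMod Q) t (ZMod.isPrimitive_stdAddChar Q)
  rw [this]
  simp [ZMod.card]

lemma card_fiber (a : ZMod Q) (x : ZMod Q) :
    ((Finset.univ : Finset (ZMod Q)).filter (fun c => a * x = a * c)).card = ker a := by
  unfold ker
  apply Finset.card_bij (fun c _ => c - x)
  · intro c hc
    simp only [Finset.mem_filter, Finset.mem_univ, true_and] at hc ⊢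
    rw [mul_sub, hc, sub_self]
  · intro c _ d _ h
    exact sub_left_injective h
  · intro c hc
    simp only [Finset.mem_filter, Finset.mem_univ, true_and] at hc
    refine ⟨c + x, ?_, by ring⟩
    simp only [Finset.mem_filter, Finset.mem_univ, true_and]
    rw [mul_add, hc, zero_add]

lemma norm_char (x : ZMod Q) : ‖(ZMod.stdAddChar x : ℂ)‖ = 1 := by
  rw [ZMod.stdAddChar_apply]
  exact Circle.norm_coe _

lemma conj_char (x : ZMod Q) : (starRingEnd ℂ) (ZMod.stdAddChar x : ℂ) = ZMod.stdAddChar (-x) := by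
  rw [ZMod.stdAddChar_apply, ZMod.stdAddChar_apply]
  rw [← Circle.coe_inv_eq_conj, AddChar.map_neg_eq_inv]

/-- `∑_c |F(ac)|^2 = Q E_V(a)`. -/
lemma sum_normSq (V : Finset ℕ) (a : ZMod Q) :
    ∑ c : ZMod Q, ‖∑ v ∈ V, (ZMod.stdAddChar (a * c * (v : ZMod Q)) : ℂ)‖ ^ 2 = (Q : ℝ) * E V a := by
  have key : ∑ c : ZMod Q, ((‖∑ v ∈ V, (ZMod.stdAddChar (a * c * (v : ZMod Q)) : ℂ)‖ ^ 2 : ℝ) : ℂ)
      = (Q : ℂ) * E V a := by
    have h1 : ∀ c : ZMod Q,
        ((‖∑ v ∈ V, (ZMod.stdAddChar (a * c * (v : ZMod Q)) : ℂ)‖ ^ 2 : ℝ) : ℂ) =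
        ∑ p ∈ V ×ˢ V, (ZMod.stdAddChar (c * (a * (p.2 : ZMod Q) - a * (p.1 : ZMod Q))) : ℂ) := by
      intro c
      rw [← Complex.normSq_eq_norm_sq, Complex.normSq_eq_conj_mul_self, map_sum, Finset.sum_mul_sum,
        Finset.sum_product]
      refine Finset.sum_congr rfl (fun x _ => Finset.sum_congr rfl (fun y _ => ?_))
      rw [conj_char, ← AddChar.map_add_eq_mul]
      congr 1
      ring
    simp_rw [h1]
    rw [Finset.sum_comm]
    simp_rw [sum_char]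
    rw [← Finset.sum_filter, Finset.sum_const, nsmul_eq_mul, mul_comm]
    congr 2
    unfold E
    congr 1
    ext p
    simp only [Finset.mem_filter, sub_eq_zero]
    constructor
    · rintro ⟨h1, h2⟩; exact ⟨h1, h2.symm⟩
    · rintro ⟨h1, h2⟩; exact ⟨h1, h2.symm⟩
  exact_mod_cast key

lemma S_eq (U V : Finset ℕ) (a : ZMod Q) :
    (ker a : ℂ) * S U V a = ∑ c : ZMod Q,
      ((U.filter (fun u : ℕ => a * (u : ZMod Q) = a * c)).card : ℂ) *
        ∑ v ∈ V, (ZMod.stdAddChar (a * c * (v : ZMod Q)) : ℂ) := by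
  have h1 : ∀ c : ZMod Q, ((U.filter (fun u : ℕ => a * (u : ZMod Q) = a * c)).card : ℂ) *
        ∑ v ∈ V, (ZMod.stdAddChar (a * c * (v : ZMod Q)) : ℂ) =
      ∑ u ∈ U, if a * (u : ZMod Q) = a * c then
        ∑ v ∈ V, (ZMod.stdAddChar (a * (u : ZMod Q) * (v : ZMod Q)) : ℂ) else 0 := by
    intro c
    rw [← Finset.sum_filter, ← nsmul_eq_mul, ← Finset.sum_const]
    refine Finset.sum_congr rfl (fun u hu => ?_)
    rw [(Finset.mem_filter.mp hu).2]
  simp_rw [h1]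
  rw [Finset.sum_comm]
  unfold S
  rw [Finset.mul_sum]
  refine Finset.sum_congr rfl (fun u _ => ?_)
  rw [← Finset.sum_filter, Finset.sum_const, nsmul_eq_mul, card_fiber]

lemma sum_sq_fiber (U : Finset ℕ) (a : ZMod Q) :
    ∑ c : ZMod Q, ((U.filter (fun u : ℕ => a * (u : ZMod Q) = a * c)).card : ℝ) ^ 2
      = (ker a : ℝ) * E U a := by
  have h1 : ∀ c : ZMod Q, ((U.filter (fun u : ℕ => a * (u : ZMod Q) = a * c)).card : ℝ) ^ 2 =
      ∑ p ∈ (U ×ˢ U).filter (fun p => a * (p.1 : ZMod Q) = a * (p.2 : ZMod Q)),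
        if a * (p.1 : ZMod Q) = a * c then (1 : ℝ) else 0 := by
    intro c
    rw [sq, ← Nat.cast_mul, ← Finset.card_product, ← Finset.sum_filter, Finset.filter_filter,
      Finset.sum_const, nsmul_eq_mul, mul_one]
    congr 2
    ext p
    simp only [Finset.mem_product, Finset.mem_filter]
    constructor
    · rintro ⟨⟨h1, h2⟩, h3, h4⟩
      exact ⟨⟨h1, h3⟩, by rw [h2, h4], h2⟩
    · rintro ⟨⟨h1, h3⟩, h5, h2⟩
      exact ⟨⟨h1, h2⟩, h3, by rw [← h5, h2]⟩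
  simp_rw [h1]
  rw [Finset.sum_comm]
  have h2 : ∀ p : ℕ × ℕ, ∑ c : ZMod Q, (if a * (p.1 : ZMod Q) = a * c then (1 : ℝ) else 0)
      = ker a := by
    intro p
    rw [← Finset.sum_filter, Finset.sum_const, nsmul_eq_mul, mul_one, card_fiber]
  simp_rw [h2]
  rw [Finset.sum_const, nsmul_eq_mul, mul_comm]
  rfl

/-- the bilinear bound -/
lemma S_bound (U V : Finset ℕ) (a : ZMod Q) :
    (ker a : ℝ) * ‖S U V a‖ ^ 2 ≤ (Q : ℝ) * E U a * E V a := by
  have hk : 0 < ker a := by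
    unfold ker
    rw [Finset.card_pos]
    exact ⟨0, by simp⟩
  have hk' : (0 : ℝ) < ker a := by exact_mod_cast hk
  have h1 : ((ker a : ℝ) * ‖S U V a‖) ≤ ∑ c : ZMod Q,
      ((U.filter (fun u : ℕ => a * (u : ZMod Q) = a * c)).card : ℝ) *
        ‖∑ v ∈ V, (ZMod.stdAddChar (a * c * (v : ZMod Q)) : ℂ)‖ := by
    have := congrArg norm (S_eq U V a)
    rw [norm_mul, Complex.norm_natCast] at this
    rw [this]
    refine (norm_sum_le _ _).trans (le_of_eq ?_)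
    refine Finset.sum_congr rfl (fun c _ => ?_)
    rw [norm_mul, Complex.norm_natCast]
  have h2 := Finset.sum_mul_sq_le_sq_mul_sq (Finset.univ : Finset (ZMod Q))
    (fun c => ((U.filter (fun u : ℕ => a * (u : ZMod Q) = a * c)).card : ℝ))
    (fun c => ‖∑ v ∈ V, (ZMod.stdAddChar (a * c * (v : ZMod Q)) : ℂ)‖)
  rw [sum_sq_fiber, sum_normSq] at h2
  have h3 : ((ker a : ℝ) * ‖S U V a‖) ^ 2 ≤ (ker a : ℝ) * E U a * (Q * E V a) :=
    (pow_le_pow_left₀ (by positivity) h1 2).trans h2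
  have h4 : (ker a : ℝ) * ((ker a : ℝ) * ‖S U V a‖ ^ 2) ≤ (ker a : ℝ) * ((Q : ℝ) * E U a * E V a) := by
    nlinarith [h3]
  exact le_of_mul_le_mul_left h4 hk'

end Vale.Agent.EgyptH1
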