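import Mathlib
import Vale.Agent.EgyptH1.Fourier

namespace Vale.Agent.EgyptH1

open Finset

variable {Q : ℕ} [NeZero Q]

/-- primes of `A` not dividing `a` -/
def bad (A : Finset ℕ) (a : ZMod Q) : Finset ℕ := A.filter (fun q => ¬ q ∣ a.val)

lemma prod_dvd_of {A : Finset ℕ} (hA : ∀ q ∈ A, q.Prime) {n : ℕ} (h : ∀ q ∈ A, q ∣ n) :
    (∏ q ∈ A, q) ∣ n :=
  Finset.prod_primes_dvd n (fun q hq => (hA q hq).prime) h

lemma mul_eq_zero_iff' {A : Finset ℕ} (hA : ∀ q ∈ A, q.Prime) (hQ : Q = ∏ q ∈ A, q)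
    (a : ZMod Q) (x : ℤ) : a * (x : ZMod Q) = 0 ↔ ∀ q ∈ bad A a, (q : ℤ) ∣ x := by
  have h1 : a * (x : ZMod Q) = (((a.val : ℤ) * x : ℤ) : ZMod Q) := by
    push_cast
    rw [ZMod.natCast_zmod_val]
  rw [h1, ZMod.intCast_zmod_eq_zero_iff_dvd]
  constructor
  · intro h q hq
    rw [bad, Finset.mem_filter] at hq
    have h2 : (q : ℤ) ∣ (a.val : ℤ) * x := by
      refine dvd_trans ?_ h
      rw [hQ]
      exact_mod_cast Finset.dvd_prod_of_mem _ hq.1
    rcases (Nat.prime_iff_prime_int.mp (hA q hq.1)).dvd_or_dvd h2 with h3 | h3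
    · exact absurd (by exact_mod_cast h3) hq.2
    · exact h3
  · intro h
    have h2 : (∏ q ∈ A, q) ∣ (a.val * x.natAbs) := by
      apply prod_dvd_of hA
      intro q hq
      by_cases h3 : q ∣ a.val
      · exact h3.mul_right _
      · have h4 := h q (by rw [bad, Finset.mem_filter]; exact ⟨hq, h3⟩)
        exact (Int.natCast_dvd.mp h4).mul_left _
    rw [← hQ] at h2
    have h3 : (Q : ℤ) ∣ ((a.val * x.natAbs : ℕ) : ℤ) := by exact_mod_cast h2
    push_cast at h3
    rcases Int.natAbs_eq x with h4 | h4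
    · rw [h4]; simpa using h3
    · rw [h4, mul_neg, dvd_neg]; simpa using h3

lemma Q_eq {A : Finset ℕ} (hQ : Q = ∏ q ∈ A, q) (a : ZMod Q) :
    Q = (∏ q ∈ A.filter (fun q => q ∣ a.val), q) * ∏ q ∈ bad A a, q := by
  conv_lhs => rw [hQ]
  rw [bad, Finset.prod_filter_mul_prod_filter_not]

lemma le_ker {A : Finset ℕ} (hA : ∀ q ∈ A, q.Prime) (hQ : Q = ∏ q ∈ A, q) (a : ZMod Q) :
    Q ≤ ker a * ∏ q ∈ bad A a, q := by
  set b := ∏ q ∈ bad A a, q with hb
  set g := ∏ q ∈ A.filter (fun q => q ∣ a.val), q with hg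
  have hQgb : Q = g * b := Q_eq hQ a
  have hQ0 : 0 < Q := Nat.pos_of_ne_zero (NeZero.ne Q)
  have hb0 : 0 < b := by
    rcases Nat.eq_zero_or_pos b with h | h
    · rw [h] at hQgb; omega
    · exact h
  have h1 : g ≤ ker a := by
    unfold ker
    rw [← Finset.card_range g]
    apply Finset.card_le_card_of_injOn (fun j => ((b * j : ℕ) : ZMod Q))
    · intro j _
      simp only [Finset.coe_filter, Finset.mem_univ, true_and, Set.mem_ofPred_eq]
      have h2 := (mul_eq_zero_iff' hA hQ a ((b * j : ℕ) : ℤ)).mpr (by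
        intro q hq
        have h3 : q ∣ b := Finset.dvd_prod_of_mem _ hq
        exact_mod_cast h3.mul_right j)
      rw [Int.cast_natCast] at h2
      exact h2
    · intro i hi j hj hij
      simp only [Finset.coe_range, Set.mem_Iio] at hi hj
      have hi' : b * i < Q := by
        rw [hQgb, mul_comm g b]; exact Nat.mul_lt_mul_of_pos_left hi hb0
      have hj' : b * j < Q := by
        rw [hQgb, mul_comm g b]; exact Nat.mul_lt_mul_of_pos_left hj hb0
      have h3 := congrArg ZMod.val hij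
      simp only [ZMod.val_natCast] at h3
      rw [Nat.mod_eq_of_lt hi', Nat.mod_eq_of_lt hj'] at h3
      exact Nat.eq_of_mul_eq_mul_left hb0 h3
  calc Q = g * b := hQgb
    _ ≤ ker a * b := Nat.mul_le_mul_right _ h1

lemma E_le {A : Finset ℕ} (hA : ∀ q ∈ A, q.Prime) (hQ : Q = ∏ q ∈ A, q) (U : Finset ℕ)
    (a : ZMod Q) :
    E U a ≤ U.card + ((U ×ˢ U).filter (fun p : ℕ × ℕ => p.1 ≠ p.2 ∧
      ∀ q ∈ bad A a, (q : ℤ) ∣ (p.1 : ℤ) - p.2)).card := by
  unfold E
  have h1 : (U ×ˢ U).filter (fun p : ℕ × ℕ => a * (p.1 : ZMod Q) = a * (p.2 : ZMod Q)) ⊆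
      U.image (fun u => (u, u)) ∪ ((U ×ˢ U).filter (fun p : ℕ × ℕ => p.1 ≠ p.2 ∧
      ∀ q ∈ bad A a, (q : ℤ) ∣ (p.1 : ℤ) - p.2)) := by
    intro p hp
    rw [Finset.mem_filter, Finset.mem_product] at hp
    obtain ⟨⟨hp1, hp2⟩, hp3⟩ := hp
    rw [Finset.mem_union]
    by_cases h : p.1 = p.2
    · left
      rw [Finset.mem_image]
      exact ⟨p.1, hp1, by ext <;> simp [h]⟩
    · right
      rw [Finset.mem_filter, Finset.mem_product]
      refine ⟨⟨hp1, hp2⟩, h, ?_⟩
      rw [← mul_eq_zero_iff' hA hQ a]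
      push_cast
      rw [mul_sub, hp3, sub_self]
  refine (Finset.card_le_card h1).trans ((Finset.card_union_le _ _).trans ?_)
  gcongr
  exact Finset.card_image_le

lemma card_bad_eq {A : Finset ℕ} (hA : ∀ q ∈ A, q.Prime) (hQ : Q = ∏ q ∈ A, q) (B : Finset ℕ) :
    ((Finset.univ : Finset (ZMod Q)).filter (fun a => bad A a = B)).card ≤ ∏ q ∈ B, q := by
  rcases Finset.eq_empty_or_nonempty
    ((Finset.univ : Finset (ZMod Q)).filter (fun a => bad A a = B)) with h | ⟨a0, ha0⟩
  · rw [h]; simp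
  · have ha0' : bad A a0 = B := (Finset.mem_filter.mp ha0).2
    set g := ∏ q ∈ A.filter (fun q => q ∣ a0.val), q with hg
    have hQgb : Q = g * ∏ q ∈ B, q := by rw [← ha0']; exact Q_eq hQ a0
    have hQ0 : 0 < Q := Nat.pos_of_ne_zero (NeZero.ne Q)
    have hg0 : 0 < g := by
      rcases Nat.eq_zero_or_pos g with h | h
      · rw [h] at hQgb; omega
      · exact h
    have hdvd : ∀ a : ZMod Q, bad A a = B → g ∣ a.val := by
      intro a ha
      apply prod_dvd_of
      · intro q hq; exact hA q (Finset.mem_filter.mp hq).1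
      · intro q hq
        rw [Finset.mem_filter] at hq
        by_contra hcon
        have h1 : q ∈ bad A a := by rw [bad, Finset.mem_filter]; exact ⟨hq.1, hcon⟩
        rw [ha, ← ha0', bad, Finset.mem_filter] at h1
        exact h1.2 hq.2
    rw [← Finset.card_range (∏ q ∈ B, q)]
    apply Finset.card_le_card_of_injOn (fun a => a.val / g)
    · intro a ha
      simp only [Finset.coe_filter, Finset.mem_univ, true_and, Set.mem_ofPred_eq] at ha
      simp only [Finset.coe_range, Set.mem_Iio]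
      apply Nat.div_lt_of_lt_mul
      rw [← hQgb]
      exact ZMod.val_lt a
    · intro a ha b hb hab
      simp only [Finset.coe_filter, Finset.mem_univ, true_and, Set.mem_ofPred_eq] at ha hb
      have h1 := Nat.div_mul_cancel (hdvd a ha)
      have h2 := Nat.div_mul_cancel (hdvd b hb)
      simp only at hab
      rw [hab, h2] at h1
      exact ZMod.val_injective Q h1.symm

lemma bad_subset (A : Finset ℕ) (a : ZMod Q) : bad A a ⊆ A := Finset.filter_subset _ _

lemma bad_nonempty {A : Finset ℕ} (hA : ∀ q ∈ A, q.Prime) (hQ : Q = ∏ q ∈ A, q) {a : ZMod Q}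
    (ha : a ≠ 0) : (bad A a).Nonempty := by
  by_contra h
  rw [Finset.not_nonempty_iff_eq_empty] at h
  have := (mul_eq_zero_iff' hA hQ a 1).mpr (by rw [h]; intro q hq; simp at hq)
  simp at this
  exact ha this

/-- summing over nonzero frequencies -/
lemma sum_bad_le {A : Finset ℕ} (hA : ∀ q ∈ A, q.Prime) (hQ : Q = ∏ q ∈ A, q)
    (G : Finset ℕ → ℝ) (hG : ∀ B, 0 ≤ G B) :
    ∑ a ∈ (Finset.univ : Finset (ZMod Q)).filter (fun a => a ≠ 0), G (bad A a) ≤
      ∑ B ∈ A.powerset.filter (fun B => B.Nonempty), ((∏ q ∈ B, q : ℕ) : ℝ) * G B := by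
  have h1 : ∀ a ∈ (Finset.univ : Finset (ZMod Q)).filter (fun a => a ≠ 0),
      bad A a ∈ A.powerset.filter (fun B => B.Nonempty) := by
    intro a ha
    rw [Finset.mem_filter, Finset.mem_powerset]
    exact ⟨bad_subset A a, bad_nonempty hA hQ (Finset.mem_filter.mp ha).2⟩
  rw [← Finset.sum_fiberwise_of_maps_to h1]
  apply Finset.sum_le_sum
  intro B _
  have h2 : ∑ a ∈ ((Finset.univ : Finset (ZMod Q)).filter (fun a => a ≠ 0)).filter
      (fun a => bad A a = B), G (bad A a) = ∑ a ∈ ((Finset.univ : Finset (ZMod Q)).filter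
      (fun a => a ≠ 0)).filter (fun a => bad A a = B), G B := by
    refine Finset.sum_congr rfl (fun a ha => ?_)
    rw [(Finset.mem_filter.mp ha).2]
  rw [h2, Finset.sum_const, nsmul_eq_mul]
  apply mul_le_mul_of_nonneg_right _ (hG B)
  have h3 : (((Finset.univ : Finset (ZMod Q)).filter (fun a => a ≠ 0)).filter
      (fun a => bad A a = B)).card ≤ ∏ q ∈ B, q := by
    refine le_trans (Finset.card_le_card ?_) (card_bad_eq hA hQ B)
    intro a ha
    rw [Finset.mem_filter] at ha ⊢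
    exact ⟨Finset.mem_univ _, ha.2⟩
  exact_mod_cast h3

lemma char_sum {ι : Type*} (s : Finset ι) (f : ι → ZMod Q) :
    (ZMod.stdAddChar (∑ i ∈ s, f i) : ℂ) = ∏ i ∈ s, (ZMod.stdAddChar (f i) : ℂ) := by
  classical
  induction s using Finset.induction_on with
  | empty => simp [AddChar.map_zero_eq_one]
  | insert a s ha ih => rw [Finset.sum_insert ha, Finset.prod_insert ha, AddChar.map_add_eq_mul, ih]

/-- Fourier inversion: if nontrivial frequencies are small then every residue is represented. -/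
lemma exists_rep (U V : Finset ℕ) (t : ℕ) (e : Fin t → ZMod Q) (n : ZMod Q)
    (h : ∑ a ∈ (Finset.univ : Finset (ZMod Q)).filter (fun a => a ≠ 0),
      ∏ i, ‖S U V (a * e i)‖ < ((U.card : ℝ) * V.card) ^ t) :
    ∃ p : Fin t → ℕ × ℕ, (∀ i, (p i).1 ∈ U ∧ (p i).2 ∈ V) ∧
      ∑ i, e i * ((p i).1 : ZMod Q) * ((p i).2 : ZMod Q) = n := by
  by_contra hcon
  push Not at hcon
  have h1 : ∀ a : ZMod Q, ∏ i, S U V (a * e i) =
      ∑ p ∈ Fintype.piFinset (fun _ : Fin t => U ×ˢ V),
        (ZMod.stdAddChar (a * ∑ i, e i * ((p i).1 : ZMod Q) * ((p i).2 : ZMod Q)) : ℂ) := by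
    intro a
    have h2 : ∀ i, S U V (a * e i) = ∑ w ∈ U ×ˢ V,
        (ZMod.stdAddChar (a * (e i * (w.1 : ZMod Q) * (w.2 : ZMod Q))) : ℂ) := by
      intro i
      unfold S
      rw [Finset.sum_product]
      refine Finset.sum_congr rfl (fun u _ => Finset.sum_congr rfl (fun v _ => ?_))
      congr 1; ring
    simp_rw [h2]
    rw [Finset.prod_univ_sum]
    refine Finset.sum_congr rfl (fun p _ => ?_)
    rw [Finset.mul_sum, char_sum]
  have h3 : ∑ a : ZMod Q, (ZMod.stdAddChar (a * (-n)) : ℂ) * ∏ i, S U V (a * e i) = 0 := by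
    simp_rw [h1, Finset.mul_sum, ← AddChar.map_add_eq_mul]
    rw [Finset.sum_comm]
    apply Finset.sum_eq_zero
    intro p hp
    have h4 : ∀ a : ZMod Q, a * (-n) + a * ∑ i, e i * ((p i).1 : ZMod Q) * ((p i).2 : ZMod Q) =
        a * (∑ i, e i * ((p i).1 : ZMod Q) * ((p i).2 : ZMod Q) - n) := by intro a; ring
    have h5 : ∀ a : ZMod Q, (ZMod.stdAddChar (a * (-n) + ∑ i, a * (e i * ((p i).1 : ZMod Q) * ((p i).2 : ZMod Q))) : ℂ)
        = ZMod.stdAddChar (a * (∑ i, e i * ((p i).1 : ZMod Q) * ((p i).2 : ZMod Q) - n)) := by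
      intro a; rw [← Finset.mul_sum, h4]
    simp_rw [h5]
    rw [sum_char, if_neg]
    refine sub_ne_zero.mpr ?_
    apply hcon p
    intro i
    rw [Fintype.mem_piFinset] at hp
    exact Finset.mem_product.mp (hp i)
  have h6 : ∏ i : Fin t, S U V ((0 : ZMod Q) * e i) = ((U.card : ℂ) * V.card) ^ t := by
    have : ∀ i : Fin t, S U V ((0 : ZMod Q) * e i) = (U.card : ℂ) * V.card := by
      intro i
      unfold S
      simp
    simp_rw [this]
    simp
  have h7 : (Finset.univ : Finset (ZMod Q)) = insert 0 (Finset.univ.filter (fun a => a ≠ 0)) := by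
    ext a; simp [em]
  rw [h7, Finset.sum_insert (by simp), h6, zero_mul, AddChar.map_zero_eq_one, one_mul] at h3
  have h8 : ((U.card : ℝ) * V.card) ^ t = ‖∑ a ∈ (Finset.univ : Finset (ZMod Q)).filter
      (fun a => a ≠ 0), (ZMod.stdAddChar (a * (-n)) : ℂ) * ∏ i, S U V (a * e i)‖ := by
    have h9 := eq_neg_of_add_eq_zero_left h3
    have h10 := congrArg norm h9
    rw [norm_neg, norm_pow, norm_mul, Complex.norm_natCast, Complex.norm_natCast] at h10
    exact h10
  have h9 : ‖∑ a ∈ (Finset.univ : Finset (ZMod Q)).filter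
      (fun a => a ≠ 0), (ZMod.stdAddChar (a * (-n)) : ℂ) * ∏ i, S U V (a * e i)‖ ≤
      ∑ a ∈ (Finset.univ : Finset (ZMod Q)).filter (fun a => a ≠ 0),
        ∏ i, ‖S U V (a * e i)‖ := by
    refine (norm_sum_le _ _).trans (le_of_eq ?_)
    refine Finset.sum_congr rfl (fun a _ => ?_)
    rw [norm_mul, norm_char, one_mul, norm_prod]
  linarith

end Vale.Agent.EgyptH1
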