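import Mathlib
import Vale.Agent.EgyptH1.Basic
import Vale.Agent.EgyptH1.Structure
import Vale.Agent.EgyptH1.Greedy

namespace Vale.Agent.EgyptH1

open Finset

lemma card_divisors_prod {T : Finset ℕ} (hT : ∀ q ∈ T, q.Prime) :
    (∏ q ∈ T, q).divisors.card = 2 ^ T.card := by
  induction T using Finset.induction_on with
  | empty => simp
  | insert p T hp ih =>
    rw [Finset.prod_insert hp, Finset.card_insert_of_notMem hp]
    have hpp : p.Prime := hT p (Finset.mem_insert_self _ _)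
    have hcop : Nat.Coprime p (∏ q ∈ T, q) := by
      apply Nat.Coprime.prod_right
      intro q hq
      exact (Nat.coprime_primes hpp (hT q (Finset.mem_insert_of_mem hq))).mpr
        (fun h => hp (h ▸ hq))
    rw [Nat.Coprime.card_divisors_mul hcop, ih (fun q hq => hT q (Finset.mem_insert_of_mem hq)),
      Nat.Prime.divisors hpp, Finset.card_pair (Nat.Prime.one_lt hpp).ne, pow_succ, mul_comm]

lemma card_primes_dvd {P : Finset ℕ} (hP : ∀ q ∈ P, q.Prime) {D : ℤ} (hD : D ≠ 0) {s : ℕ}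
    (hs : D.natAbs ≤ 2 ^ s) : (P.filter (fun q : ℕ => (q : ℤ) ∣ D)).card ≤ s := by
  set F := P.filter (fun q : ℕ => (q : ℤ) ∣ D) with hF
  have h1 : (∏ q ∈ F, q) ∣ D.natAbs := by
    apply prod_dvd_of
    · intro q hq; exact hP q (Finset.mem_filter.mp hq).1
    · intro q hq; exact Int.natCast_dvd.mp (Finset.mem_filter.mp hq).2
  have h2 : (∏ q ∈ F, q) ≤ 2 ^ s := (Nat.le_of_dvd (Int.natAbs_pos.mpr hD) h1).trans hs
  have h3 : 2 ^ F.card ≤ ∏ q ∈ F, q := by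
    rw [← Finset.prod_const]
    apply Finset.prod_le_prod'
    intro q hq
    exact (hP q (Finset.mem_filter.mp hq).1).two_le
  exact (Nat.pow_le_pow_iff_right (by norm_num)).mp (h3.trans h2)

lemma prod_sq_le {t : ℕ} (f : Fin (2 * t) → ℝ) (K : ℝ) (hf : ∀ i, 0 ≤ f i) (hK : ∀ i, f i ^ 2 ≤ K) :
    ∏ i, f i ≤ K ^ t := by
  rcases Nat.eq_zero_or_pos t with rfl | ht
  · simp
  have hK0 : 0 ≤ K := (sq_nonneg _).trans (hK ⟨0, by omega⟩)
  have h1 : (∏ i, f i) ^ 2 ≤ (K ^ t) ^ 2 := by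
    rw [← Finset.prod_pow]
    calc ∏ i, f i ^ 2 ≤ ∏ _i : Fin (2 * t), K :=
          Finset.prod_le_prod (fun _ _ => sq_nonneg _) (fun i _ => hK i)
      _ = (K ^ t) ^ 2 := by
          rw [Finset.prod_const, Finset.card_univ, Fintype.card_fin, ← pow_mul, mul_comm]
  exact le_of_sq_le_sq' h1 (Finset.prod_nonneg fun i _ => hf i) (by positivity)
where
  le_of_sq_le_sq' {a b : ℝ} (h : a ^ 2 ≤ b ^ 2) (_ : 0 ≤ a) (hb : 0 ≤ b) : a ≤ b :=
    le_of_sq_le_sq h hb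

/-- existence of a modulus with few collisions -/
lemma exists_modulus (U V P : Finset ℕ) (θ : ℝ) (s k : ℕ)
    (hU : U.Nonempty) (hV : V.Nonempty)
    (hUs : ∀ u ∈ U, u ≤ 2 ^ s) (hVs : ∀ v ∈ V, v ≤ 2 ^ s)
    (hP : ∀ q ∈ P, q.Prime) (hθ : 1 ≤ θ) (hk : 0 < k) (hPc : θ * s * k + k ≤ (P.card : ℝ)) :
    ∃ A ⊆ P, A.card = k ∧ ∀ B ⊆ A,
      (((U ×ˢ U).filter (fun p : ℕ × ℕ => p.1 ≠ p.2 ∧
        ∀ q ∈ B, (q : ℤ) ∣ (p.1 : ℤ) - p.2)).card : ℝ) ≤ 6 * (U.card : ℝ) ^ 2 / θ ^ B.card ∧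
      (((V ×ˢ V).filter (fun p : ℕ × ℕ => p.1 ≠ p.2 ∧
        ∀ q ∈ B, (q : ℤ) ∣ (p.1 : ℤ) - p.2)).card : ℝ) ≤ 6 * (V.card : ℝ) ^ 2 / θ ^ B.card := by
  classical
  have hU0 : (0 : ℝ) < U.card := by exact_mod_cast hU.card_pos
  have hV0 : (0 : ℝ) < V.card := by exact_mod_cast hV.card_pos
  set ΩU : Finset (Bool × ℕ × ℕ) :=
    ((U ×ˢ U).filter (fun p : ℕ × ℕ => p.1 ≠ p.2)).image (fun p => (true, p)) with hΩU
  set ΩV : Finset (Bool × ℕ × ℕ) :=
    ((V ×ˢ V).filter (fun p : ℕ × ℕ => p.1 ≠ p.2)).image (fun p => (false, p)) with hΩV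
  set w : Bool × ℕ × ℕ → ℝ := fun x => if x.1 then 1 / (U.card : ℝ) ^ 2 else 1 / (V.card : ℝ) ^ 2
    with hw
  set D : Bool × ℕ × ℕ → ℤ := fun x => (x.2.1 : ℤ) - x.2.2 with hD
  have hw0 : ∀ ω ∈ ΩU ∪ ΩV, 0 ≤ w ω := by
    intro ω _
    simp only [hw]
    split_ifs <;> positivity
  have habs : ∀ (x y : ℕ), x ≤ 2 ^ s → y ≤ 2 ^ s → ((x : ℤ) - y).natAbs ≤ 2 ^ s := by
    intro x y hx hy; omega
  have hs' : ∀ ω ∈ ΩU ∪ ΩV, (P.filter (fun q : ℕ => (q : ℤ) ∣ D ω)).card ≤ s := by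
    intro ω hω
    rw [Finset.mem_union, hΩU, hΩV, Finset.mem_image, Finset.mem_image] at hω
    rcases hω with ⟨p, hp, rfl⟩ | ⟨p, hp, rfl⟩
    · rw [Finset.mem_filter, Finset.mem_product] at hp
      apply card_primes_dvd hP
      · simp only [hD]
        have := hp.2
        omega
      · exact habs _ _ (hUs _ hp.1.1) (hUs _ hp.1.2)
    · rw [Finset.mem_filter, Finset.mem_product] at hp
      apply card_primes_dvd hP
      · simp only [hD]
        have := hp.2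
        omega
      · exact habs _ _ (hVs _ hp.1.1) (hVs _ hp.1.2)
  have hsumU : ∑ ω ∈ ΩU, w ω ≤ 1 := by
    rw [hΩU, Finset.sum_image (by intro a _ b _ h; simpa using h)]
    simp only [hw, if_true]
    rw [Finset.sum_const, nsmul_eq_mul]
    have h1 : (((U ×ˢ U).filter (fun p : ℕ × ℕ => p.1 ≠ p.2)).card : ℝ) ≤ (U.card : ℝ) ^ 2 := by
      have := Finset.card_le_card (Finset.filter_subset (fun p : ℕ × ℕ => p.1 ≠ p.2) (U ×ˢ U))
      rw [Finset.card_product, ← sq] at this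
      exact_mod_cast this
    rw [mul_one_div, div_le_one (by positivity)]
    exact h1
  have hsumV : ∑ ω ∈ ΩV, w ω ≤ 1 := by
    rw [hΩV, Finset.sum_image (by intro a _ b _ h; simpa using h)]
    simp only [hw, Bool.false_eq_true, if_false]
    rw [Finset.sum_const, nsmul_eq_mul]
    have h1 : (((V ×ˢ V).filter (fun p : ℕ × ℕ => p.1 ≠ p.2)).card : ℝ) ≤ (V.card : ℝ) ^ 2 := by
      have := Finset.card_le_card (Finset.filter_subset (fun p : ℕ × ℕ => p.1 ≠ p.2) (V ×ˢ V))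
      rw [Finset.card_product, ← sq] at this
      exact_mod_cast this
    rw [mul_one_div, div_le_one (by positivity)]
    exact h1
  have hsum : ∑ ω ∈ ΩU ∪ ΩV, w ω ≤ 2 := by
    have h1 : Disjoint ΩU ΩV := by
      rw [Finset.disjoint_left]
      intro x hx hy
      rw [hΩU, Finset.mem_image] at hx
      rw [hΩV, Finset.mem_image] at hy
      obtain ⟨p, _, rfl⟩ := hx
      obtain ⟨p', _, h⟩ := hy
      simp at h
    rw [Finset.sum_union h1]
    linarith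
  obtain ⟨A, hAP, hAc, hA⟩ := select (ΩU ∪ ΩV) w D θ P s k hw0 (by linarith) hs' hk hPc
  refine ⟨A, hAP, hAc, fun B hB => ?_⟩
  have hθB : 0 < θ ^ B.card := by positivity
  have hmain : ∑ ω ∈ (ΩU ∪ ΩV).filter (fun ω => ∀ q ∈ B, (q : ℤ) ∣ D ω), w ω ≤ 6 / θ ^ B.card := by
    refine (hA B hB).trans ?_
    rw [div_le_div_iff_of_pos_right hθB]
    linarith
  constructor
  · set F := (U ×ˢ U).filter (fun p : ℕ × ℕ => p.1 ≠ p.2 ∧ ∀ q ∈ B, (q : ℤ) ∣ (p.1 : ℤ) - p.2)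
      with hF
    have h1 : (F.card : ℝ) * (1 / (U.card : ℝ) ^ 2) ≤ 6 / θ ^ B.card := by
      refine le_trans ?_ hmain
      have h2 : (F.card : ℝ) * (1 / (U.card : ℝ) ^ 2) = ∑ ω ∈ F.image (fun p => (true, p)), w ω := by
        rw [Finset.sum_image (by intro a _ b _ h; simpa using h)]
        simp only [hw, if_true]
        rw [Finset.sum_const, nsmul_eq_mul]
      rw [h2]
      apply Finset.sum_le_sum_of_subset_of_nonneg
      · intro x hx
        rw [Finset.mem_image] at hx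
        obtain ⟨p, hp, rfl⟩ := hx
        rw [hF, Finset.mem_filter] at hp
        rw [Finset.mem_filter, Finset.mem_union]
        refine ⟨Or.inl ?_, hp.2.2⟩
        rw [hΩU, Finset.mem_image]
        exact ⟨p, by rw [Finset.mem_filter]; exact ⟨hp.1, hp.2.1⟩, rfl⟩
      · intro x hx _
        exact hw0 x (Finset.mem_filter.mp hx).1
    rw [mul_one_div, div_le_iff₀ (by positivity)] at h1
    calc (F.card : ℝ) ≤ 6 / θ ^ B.card * (U.card : ℝ) ^ 2 := h1
      _ = _ := by ring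
  · set F := (V ×ˢ V).filter (fun p : ℕ × ℕ => p.1 ≠ p.2 ∧ ∀ q ∈ B, (q : ℤ) ∣ (p.1 : ℤ) - p.2)
      with hF
    have h1 : (F.card : ℝ) * (1 / (V.card : ℝ) ^ 2) ≤ 6 / θ ^ B.card := by
      refine le_trans ?_ hmain
      have h2 : (F.card : ℝ) * (1 / (V.card : ℝ) ^ 2) = ∑ ω ∈ F.image (fun p => (false, p)), w ω := by
        rw [Finset.sum_image (by intro a _ b _ h; simpa using h)]
        simp [hw]
      rw [h2]
      apply Finset.sum_le_sum_of_subset_of_nonneg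
      · intro x hx
        rw [Finset.mem_image] at hx
        obtain ⟨p, hp, rfl⟩ := hx
        rw [hF, Finset.mem_filter] at hp
        rw [Finset.mem_filter, Finset.mem_union]
        refine ⟨Or.inr ?_, hp.2.2⟩
        rw [hΩV, Finset.mem_image]
        exact ⟨p, by rw [Finset.mem_filter]; exact ⟨hp.1, hp.2.1⟩, rfl⟩
      · intro x hx _
        exact hw0 x (Finset.mem_filter.mp hx).1
    rw [mul_one_div, div_le_iff₀ (by positivity)] at h1
    calc (F.card : ℝ) ≤ 6 / θ ^ B.card * (V.card : ℝ) ^ 2 := h1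
      _ = _ := by ring

/-- The analytic heart: every residue class modulo `∏ A` is a combination
`∑_{i<2t} 2^i u_i v_i`. -/
lemma exists_rep_of_modulus {U V A : Finset ℕ} (hA : ∀ q ∈ A, q.Prime) (hA2 : ∀ q ∈ A, q ≠ 2)
    {θ Y : ℝ} {k t : ℕ} (hU : U.Nonempty) (hV : V.Nonempty) (hAk : A.card = k)
    (hY : ∀ q ∈ A, (q : ℝ) ≤ Y) (hY1 : 1 ≤ Y) (hθ : 1 ≤ θ)
    (hUθ : θ ^ k ≤ U.card) (hVθ : θ ^ k ≤ V.card)
    (hcol : ∀ B ⊆ A,
      (((U ×ˢ U).filter (fun p : ℕ × ℕ => p.1 ≠ p.2 ∧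
        ∀ q ∈ B, (q : ℤ) ∣ (p.1 : ℤ) - p.2)).card : ℝ) ≤ 6 * (U.card : ℝ) ^ 2 / θ ^ B.card ∧
      (((V ×ˢ V).filter (fun p : ℕ × ℕ => p.1 ≠ p.2 ∧
        ∀ q ∈ B, (q : ℤ) ∣ (p.1 : ℤ) - p.2)).card : ℝ) ≤ 6 * (V.card : ℝ) ^ 2 / θ ^ B.card)
    (hnum : 49 ^ t * ((1 + Y * (Y / θ ^ 2) ^ t) ^ k - 1) < 1) (n : ℕ) :
    ∃ p : Fin (2 * t) → ℕ × ℕ, (∀ i, (p i).1 ∈ U ∧ (p i).2 ∈ V) ∧
      (∑ i : Fin (2 * t), 2 ^ (i : ℕ) * (p i).1 * (p i).2) ≡ n [MOD ∏ q ∈ A, q] := by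
  classical
  set Q := ∏ q ∈ A, q with hQdef
  have hQ0 : Q ≠ 0 := by
    rw [hQdef]; exact Finset.prod_ne_zero_iff.mpr (fun q hq => (hA q hq).ne_zero)
  have : NeZero Q := ⟨hQ0⟩
  have hQpos : (0 : ℝ) < Q := by exact_mod_cast Nat.pos_of_ne_zero hQ0
  have hU0 : (0 : ℝ) < U.card := by exact_mod_cast hU.card_pos
  have hV0 : (0 : ℝ) < V.card := by exact_mod_cast hV.card_pos
  set W : ℝ := (U.card : ℝ) * V.card with hW
  have hW0 : 0 < W := mul_pos hU0 hV0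
  -- pointwise bound
  have hE : ∀ (T : Finset ℕ), (0 : ℝ) < T.card → θ ^ k ≤ T.card → (∀ B ⊆ A,
      (((T ×ˢ T).filter (fun p : ℕ × ℕ => p.1 ≠ p.2 ∧
        ∀ q ∈ B, (q : ℤ) ∣ (p.1 : ℤ) - p.2)).card : ℝ) ≤ 6 * (T.card : ℝ) ^ 2 / θ ^ B.card) →
      ∀ a : ZMod Q, (E T a : ℝ) ≤ 7 * (T.card : ℝ) ^ 2 / θ ^ (bad A a).card := by
    intro T hT0 hTθ hTcol a
    have h1 := E_le hA hQdef T a
    have h2 : (E T a : ℝ) ≤ T.card + (((T ×ˢ T).filter (fun p : ℕ × ℕ => p.1 ≠ p.2 ∧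
      ∀ q ∈ bad A a, (q : ℤ) ∣ (p.1 : ℤ) - p.2)).card : ℝ) := by exact_mod_cast h1
    have h3 := hTcol (bad A a) (bad_subset A a)
    have hj : (bad A a).card ≤ k := by rw [← hAk]; exact Finset.card_le_card (bad_subset A a)
    have h4 : θ ^ (bad A a).card ≤ T.card := (pow_le_pow_right₀ hθ hj).trans hTθ
    have h5 : 0 < θ ^ (bad A a).card := by positivity
    have h6 : (T.card : ℝ) ≤ (T.card : ℝ) ^ 2 / θ ^ (bad A a).card := by
      rw [le_div_iff₀ h5, sq]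
      exact mul_le_mul_of_nonneg_left h4 hT0.le
    calc (E T a : ℝ) ≤ (T.card : ℝ) ^ 2 / θ ^ (bad A a).card
          + 6 * (T.card : ℝ) ^ 2 / θ ^ (bad A a).card := by linarith
      _ = _ := by ring
  have hS : ∀ a : ZMod Q, ‖S U V a‖ ^ 2 ≤ 49 * W ^ 2 * (Y / θ ^ 2) ^ (bad A a).card := by
    intro a
    have h1 := S_bound U V a
    have h2 : (Q : ℝ) ≤ ker a * ((∏ q ∈ bad A a, q : ℕ) : ℝ) := by exact_mod_cast le_ker hA hQdef a
    have hk : (0 : ℝ) < ker a := by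
      have : 0 < ker a := by
        unfold ker
        rw [Finset.card_pos]
        exact ⟨0, by simp⟩
      exact_mod_cast this
    have h3 : ((∏ q ∈ bad A a, q : ℕ) : ℝ) ≤ Y ^ (bad A a).card := by
      push_cast
      rw [← Finset.prod_const]
      apply Finset.prod_le_prod (fun _ _ => by positivity)
      intro q hq
      exact hY q (bad_subset A a hq)
    have h4 := hE U hU0 hUθ (fun B hB => (hcol B hB).1) a
    have h5 := hE V hV0 hVθ (fun B hB => (hcol B hB).2) a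
    have h6 : (ker a : ℝ) * ‖S U V a‖ ^ 2 ≤
        ker a * (Y ^ (bad A a).card * (7 * (U.card : ℝ) ^ 2 / θ ^ (bad A a).card) *
          (7 * (V.card : ℝ) ^ 2 / θ ^ (bad A a).card)) := by
      refine h1.trans ?_
      calc (Q : ℝ) * E U a * E V a
          ≤ (ker a * Y ^ (bad A a).card) * (7 * (U.card : ℝ) ^ 2 / θ ^ (bad A a).card) *
            (7 * (V.card : ℝ) ^ 2 / θ ^ (bad A a).card) := by
            gcongr
            exact h2.trans (mul_le_mul_of_nonneg_left h3 hk.le)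
        _ = _ := by ring
    have h7 := le_of_mul_le_mul_left h6 hk
    refine h7.trans (le_of_eq ?_)
    rw [hW, div_pow, ← pow_mul, mul_comm 2, pow_mul]
    field_simp
    ring
  have hbadmul : ∀ (a : ZMod Q) (i : ℕ), bad A (a * (2 : ZMod Q) ^ i) = bad A a := by
    intro a i
    unfold bad
    apply Finset.filter_congr
    intro q hq
    have hqQ : q ∣ Q := Finset.dvd_prod_of_mem _ hq
    have h1 : (a * (2 : ZMod Q) ^ i).val = (a.val * 2 ^ i) % Q := by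
      have h2 : (a * (2 : ZMod Q) ^ i) = ((a.val * 2 ^ i : ℕ) : ZMod Q) := by
        push_cast
        rw [ZMod.natCast_zmod_val]
      rw [h2, ZMod.val_natCast]
    rw [h1, Nat.dvd_mod_iff hqQ]
    rw [not_iff_not]
    constructor
    · intro h
      rcases (hA q hq).dvd_mul.mp h with h3 | h3
      · exact h3
      · exact absurd ((Nat.prime_dvd_prime_iff_eq (hA q hq) Nat.prime_two).mp
          ((hA q hq).dvd_of_dvd_pow h3)) (hA2 q hq)
    · intro h; exact h.mul_right _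
  have hprod : ∀ a : ZMod Q, ∏ i : Fin (2 * t), ‖S U V (a * (2 : ZMod Q) ^ (i : ℕ))‖ ≤
      (49 * W ^ 2 * (Y / θ ^ 2) ^ (bad A a).card) ^ t := by
    intro a
    apply prod_sq_le _ _ (fun _ => norm_nonneg _)
    intro i
    have := hS (a * (2 : ZMod Q) ^ (i : ℕ))
    rwa [hbadmul] at this
  have hlt : ∑ a ∈ (Finset.univ : Finset (ZMod Q)).filter (fun a => a ≠ 0),
      ∏ i : Fin (2 * t), ‖S U V (a * (2 : ZMod Q) ^ (i : ℕ))‖ < ((U.card : ℝ) * V.card) ^ (2 * t) := by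
    have h1 : ∑ a ∈ (Finset.univ : Finset (ZMod Q)).filter (fun a => a ≠ 0),
        ∏ i : Fin (2 * t), ‖S U V (a * (2 : ZMod Q) ^ (i : ℕ))‖ ≤
        ∑ a ∈ (Finset.univ : Finset (ZMod Q)).filter (fun a => a ≠ 0),
          (fun B : Finset ℕ => (49 * W ^ 2 * (Y / θ ^ 2) ^ B.card) ^ t) (bad A a) :=
      Finset.sum_le_sum (fun a _ => hprod a)
    refine lt_of_le_of_lt (h1.trans (sum_bad_le hA hQdef
      (fun B : Finset ℕ => (49 * W ^ 2 * (Y / θ ^ 2) ^ B.card) ^ t)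
      (fun B => by positivity))) ?_
    have h2 : ∀ B ∈ A.powerset.filter (fun B => B.Nonempty), ((∏ q ∈ B, q : ℕ) : ℝ) *
        (49 * W ^ 2 * (Y / θ ^ 2) ^ B.card) ^ t ≤
        49 ^ t * W ^ (2 * t) * (Y * (Y / θ ^ 2) ^ t) ^ B.card := by
      intro B hB
      rw [Finset.mem_filter, Finset.mem_powerset] at hB
      have h3 : ((∏ q ∈ B, q : ℕ) : ℝ) ≤ Y ^ B.card := by
        push_cast
        rw [← Finset.prod_const]
        apply Finset.prod_le_prod (fun _ _ => by positivity)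
        intro q hq
        exact hY q (hB.1 hq)
      calc ((∏ q ∈ B, q : ℕ) : ℝ) * (49 * W ^ 2 * (Y / θ ^ 2) ^ B.card) ^ t
          ≤ Y ^ B.card * (49 * W ^ 2 * (Y / θ ^ 2) ^ B.card) ^ t := by gcongr
        _ = _ := by
          generalize Y / θ ^ 2 = r
          generalize W = w
          rw [mul_pow, mul_pow, mul_pow, ← pow_mul, ← pow_mul, ← pow_mul, mul_comm B.card t]
          ring
    refine lt_of_le_of_lt (Finset.sum_le_sum h2) ?_
    have h4 : ∑ B ∈ A.powerset.filter (fun B => B.Nonempty),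
        49 ^ t * W ^ (2 * t) * (Y * (Y / θ ^ 2) ^ t) ^ B.card =
        49 ^ t * W ^ (2 * t) * ((1 + Y * (Y / θ ^ 2) ^ t) ^ k - 1) := by
      rw [← Finset.mul_sum]
      congr 1
      have h5 : A.powerset = insert ∅ (A.powerset.filter (fun B => B.Nonempty)) := by
        ext B
        rw [Finset.mem_insert, Finset.mem_filter, Finset.mem_powerset]
        constructor
        · intro h
          rcases Finset.eq_empty_or_nonempty B with h6 | h6
          · left; exact h6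
          · right; exact ⟨h, h6⟩
        · rintro (rfl | ⟨h, _⟩)
          · exact Finset.empty_subset _
          · exact h
      have h6 := Finset.sum_pow_mul_eq_add_pow (Y * (Y / θ ^ 2) ^ t) 1 A
      simp only [one_pow, mul_one] at h6
      rw [h5, Finset.sum_insert (by simp), Finset.card_empty, pow_zero, hAk] at h6
      rw [add_comm 1 (Y * (Y / θ ^ 2) ^ t), ← h6]
      ring
    rw [h4, ← hW]
    calc 49 ^ t * W ^ (2 * t) * ((1 + Y * (Y / θ ^ 2) ^ t) ^ k - 1)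
        = W ^ (2 * t) * (49 ^ t * ((1 + Y * (Y / θ ^ 2) ^ t) ^ k - 1)) := by ring
      _ < W ^ (2 * t) * 1 := mul_lt_mul_of_pos_left hnum (by positivity)
      _ = _ := by ring
  obtain ⟨p, hp1, hp2⟩ := exists_rep U V (2 * t) (fun i => (2 : ZMod Q) ^ (i : ℕ)) (n : ZMod Q) hlt
  refine ⟨p, hp1, ?_⟩
  rw [← ZMod.natCast_eq_natCast_iff]
  push_cast
  exact hp2

end Vale.Agent.EgyptH1
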