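import Mathlib
import Vale.Agent.EgyptH1.BlockLemma

namespace Vale.Agent.EgyptH1

open Finset

/-! ### powers of two -/

lemma rep_two_pow (j : ℕ) : ∀ n < 2 ^ (j + 1), Rep (2 ^ j) (j + 1) n := by
  induction j with
  | zero =>
    intro n hn
    interval_cases n
    · exact ⟨∅, by simp, by simp, by simp⟩
    · exact ⟨{1}, by simp, by simp, by simp⟩
  | succ j ih =>
    intro n hn
    by_cases h : n < 2 ^ (j + 1)
    · exact (ih n h).mono (pow_dvd_pow 2 (Nat.le_succ j)) (by omega)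
    · push Not at h
      have h2 : n - 2 ^ (j + 1) < 2 ^ (j + 1) := by
        have : 2 ^ (j + 1 + 1) = 2 ^ (j + 1) + 2 ^ (j + 1) := by ring
        omega
      obtain ⟨D, hD1, hD2, hD3⟩ := ih _ h2
      have hnot : 2 ^ (j + 1) ∉ D := by
        intro hmem
        have : 2 ^ (j + 1) ≤ ∑ d ∈ D, d :=
          Finset.single_le_sum (f := fun d => d) (fun _ _ => Nat.zero_le _) hmem
        omega
      refine ⟨insert (2 ^ (j + 1)) D, ?_, ?_, ?_⟩
      · intro d hd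
        rcases Finset.mem_insert.mp hd with rfl | hd
        · exact dvd_rfl
        · exact (hD1 d hd).trans (pow_dvd_pow 2 (Nat.le_succ j))
      · rw [Finset.card_insert_of_notMem hnot]; omega
      · rw [Finset.sum_insert hnot, hD3]; omega

lemma good_256 : Good (2 ^ 8) 9 := by
  intro n hn
  exact rep_two_pow 8 n (lt_of_le_of_lt hn (by norm_num))

/-! ### base levels -/

lemma base (w : ℕ) : ∃ T : Finset ℕ, ∃ h : ℕ, T.card = w ∧ (∀ q ∈ T, q.Prime ∧ q ≠ 2) ∧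
    (∀ q ∈ T, q ≤ 2 ^ (w + 1)) ∧ 2 ^ 8 * ∏ q ∈ T, q ≤ 2 ^ (8 + w * (w + 3) / 2) ∧
    Good (2 ^ 8 * ∏ q ∈ T, q) h := by
  induction w with
  | zero => exact ⟨∅, 9, rfl, by simp, by simp, by simp, by simpa using good_256⟩
  | succ w ih =>
    obtain ⟨T, h, hTc, hTp, hTb, hTM, hG⟩ := ih
    obtain ⟨q, hq, hq1, hq2⟩ := Nat.exists_prime_lt_and_le_two_mul (2 ^ (w + 1)) (by positivity)
    have hqT : q ∉ T := fun hmem => absurd (hTb q hmem) (by omega)
    have h2le : 2 ≤ 2 ^ (w + 1) := by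
      calc 2 = 2 ^ 1 := rfl
        _ ≤ 2 ^ (w + 1) := Nat.pow_le_pow_right (by norm_num) (by omega)
    have hq2' : q ≠ 2 := by omega
    have hpow : 2 * 2 ^ (w + 1) = 2 ^ (w + 2) := by ring
    have hprodge : 2 ^ w ≤ ∏ q ∈ T, q := by
      rw [← hTc, ← Finset.prod_const]
      exact Finset.prod_le_prod' (fun q hq => (hTp q hq).1.two_le)
    have hM0 : 0 < 2 ^ 8 * ∏ q ∈ T, q := by positivity [Nat.pos_of_ne_zero (Finset.prod_ne_zero_iff.mpr (fun q hq => (hTp q hq).1.ne_zero))]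
    have hqM : q ≤ 2 ^ 8 * ∏ q ∈ T, q := by
      calc q ≤ 2 ^ (w + 2) := by omega
        _ = 2 ^ 2 * 2 ^ w := by ring
        _ ≤ 2 ^ 8 * ∏ q ∈ T, q := Nat.mul_le_mul (by norm_num) hprodge
    have hcop : Nat.Coprime q (2 ^ 8 * ∏ q ∈ T, q) := by
      apply Nat.Coprime.mul_right
      · exact Nat.Coprime.pow_right 8 ((Nat.coprime_primes hq Nat.prime_two).mpr hq2')
      · apply Nat.Coprime.prod_right
        intro p hp
        exact (Nat.coprime_primes hq (hTp p hp).1).mpr (fun hh => hqT (hh ▸ hp))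
    have hG' := good_mul_prime hM0 hG hq.one_lt hcop hqM
    refine ⟨insert q T, h + h, ?_, ?_, ?_, ?_, ?_⟩
    · rw [Finset.card_insert_of_notMem hqT, hTc]
    · intro p hp
      rcases Finset.mem_insert.mp hp with rfl | hp
      · exact ⟨hq, hq2'⟩
      · exact hTp p hp
    · intro p hp
      rcases Finset.mem_insert.mp hp with rfl | hp
      · omega
      · exact (hTb p hp).trans (Nat.pow_le_pow_right (by norm_num) (by omega))
    · rw [Finset.prod_insert hqT]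
      calc 2 ^ 8 * (q * ∏ q ∈ T, q) = q * (2 ^ 8 * ∏ q ∈ T, q) := by ring
        _ ≤ 2 ^ (w + 2) * 2 ^ (8 + w * (w + 3) / 2) := Nat.mul_le_mul (by omega) hTM
        _ = 2 ^ (w + 2 + (8 + w * (w + 3) / 2)) := (pow_add 2 _ _).symm
        _ ≤ 2 ^ (8 + (w + 1) * (w + 1 + 3) / 2) := by
          apply Nat.pow_le_pow_right (by norm_num)
          have : (w + 1) * (w + 1 + 3) = w * (w + 3) + 2 * (w + 2) := by ring
          omega
    · rw [Finset.prod_insert hqT]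
      have : 2 ^ 8 * (q * ∏ q ∈ T, q) = q * (2 ^ 8 * ∏ q ∈ T, q) := by ring
      rw [this]
      exact hG'

/-! ### counting primes -/

lemma pi_lower {w : ℕ} (hw : 8 ≤ w) : (w : ℝ) ^ 28 ≤ (Nat.primeCounting (w ^ 32) : ℝ) := by
  have hw' : (8 : ℝ) ≤ w := by exact_mod_cast hw
  have hw0 : (0 : ℝ) < w := by linarith
  refine le_trans ?_ (Chebyshev.pi_ge (w ^ 32))
  have hlog : Real.log ((w ^ 32 : ℕ) : ℝ) = 32 * Real.log w := by
    push_cast; rw [Real.log_pow]; norm_num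
  have hlogw : Real.log w ≤ w := (Real.log_le_sub_one_of_pos hw0).trans (by linarith)
  have hlogpos : 0 < Real.log w := Real.log_pos (by linarith)
  rw [hlog, le_div_iff₀ (by positivity)]
  have h1 : Real.log (((w ^ 32 : ℕ) : ℝ) + 1) ≤ 33 * w := by
    have h2 : ((w ^ 32 : ℕ) : ℝ) + 1 ≤ (w : ℝ) ^ 33 := by
      push_cast
      have h3 : (1 : ℝ) ≤ (w : ℝ) ^ 32 := one_le_pow₀ (by linarith)
      calc (w : ℝ) ^ 32 + 1 ≤ (w : ℝ) ^ 32 + (w : ℝ) ^ 32 := by linarith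
        _ = 2 * (w : ℝ) ^ 32 := by ring
        _ ≤ w * (w : ℝ) ^ 32 := by nlinarith
        _ = _ := by ring
    calc Real.log (((w ^ 32 : ℕ) : ℝ) + 1) ≤ Real.log ((w : ℝ) ^ 33) :=
          Real.log_le_log (by positivity) h2
      _ = 33 * Real.log w := by rw [Real.log_pow]; norm_num
      _ ≤ 33 * w := by linarith
  have h2 : (0.69 : ℝ) ≤ Real.log 2 := by have := Real.log_two_gt_d9; linarith
  have h3 : ((w ^ 32 : ℕ) : ℝ) * Real.log 2 ≥ 0.69 * (w : ℝ) ^ 32 := by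
    push_cast; nlinarith [pow_pos hw0 32]
  have h4 : (w : ℝ) ^ 28 * (32 * Real.log w) ≤ 32 * (w : ℝ) ^ 29 := by
    calc (w : ℝ) ^ 28 * (32 * Real.log w) ≤ (w : ℝ) ^ 28 * (32 * w) := by gcongr
      _ = _ := by ring
  have h5 : (w : ℝ) ^ 32 = (w : ℝ) ^ 29 * (w : ℝ) ^ 3 := by ring
  have h6 : (512 : ℝ) ≤ (w : ℝ) ^ 3 := by
    calc (512 : ℝ) = 8 ^ 3 := by norm_num
      _ ≤ (w : ℝ) ^ 3 := by gcongr
  have h7 : (w : ℝ) ≤ (w : ℝ) ^ 29 := by
    calc (w : ℝ) = (w : ℝ) ^ 1 := by ring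
      _ ≤ (w : ℝ) ^ 29 := pow_le_pow_right₀ (by linarith) (by norm_num)
  have h8 : 0 < (w : ℝ) ^ 29 := by positivity
  nlinarith

/-- plenty of odd primes up to `w^32` outside a small set -/
lemma many_primes {w : ℕ} (hw : 8 ≤ w) (X : Finset ℕ) (hX : X.card ≤ 4 * w) :
    (w : ℝ) ^ 27 + w ≤
      ((((Finset.range (w ^ 32 + 1)).filter Nat.Prime \ (insert 2 X)).card : ℕ) : ℝ) := by
  have h1 : Nat.primeCounting (w ^ 32) = ((Finset.range (w ^ 32 + 1)).filter Nat.Prime).card := by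
    rw [Nat.primeCounting, Nat.primeCounting', Nat.count_eq_card_filter_range]
  have h2 := Finset.le_card_sdiff (insert 2 X) ((Finset.range (w ^ 32 + 1)).filter Nat.Prime)
  have h3 : (insert 2 X).card ≤ 4 * w + 1 := (Finset.card_insert_le _ _).trans (by omega)
  have h4 := pi_lower hw
  rw [h1] at h4
  have h5 : ((Finset.range (w ^ 32 + 1)).filter Nat.Prime).card ≤
      ((Finset.range (w ^ 32 + 1)).filter Nat.Prime \ (insert 2 X)).card + (4 * w + 1) := by omega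
  have h6 : (((Finset.range (w ^ 32 + 1)).filter Nat.Prime).card : ℝ) ≤
      (((Finset.range (w ^ 32 + 1)).filter Nat.Prime \ (insert 2 X)).card : ℝ) + (4 * w + 1) := by
    exact_mod_cast h5
  have hw' : (8 : ℝ) ≤ w := by exact_mod_cast hw
  have h7 : (w : ℝ) ≤ (w : ℝ) ^ 27 := by
    calc (w : ℝ) = (w : ℝ) ^ 1 := by ring
      _ ≤ (w : ℝ) ^ 27 := pow_le_pow_right₀ (by linarith) (by norm_num)
  have h8 : (w : ℝ) ^ 28 = w * (w : ℝ) ^ 27 := by ring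
  nlinarith

/-! ### the block property -/

lemma two_pow_mul_odd_inj {i j a b : ℕ} (ha : ¬ 2 ∣ a) (hb : ¬ 2 ∣ b)
    (h : 2 ^ i * a = 2 ^ j * b) : i = j := by
  wlog hij : i ≤ j generalizing i j a b
  · exact (this hb ha h.symm (by omega)).symm
  by_contra hne
  have hlt : i < j := by omega
  obtain ⟨d, rfl⟩ := Nat.exists_eq_add_of_lt hlt
  have h1 : 2 ^ i * a = 2 ^ i * (2 * (2 ^ d * b)) := by rw [h]; ring
  have h2 := Nat.eq_of_mul_eq_mul_left (by positivity : 0 < 2 ^ i) h1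
  exact ha ⟨_, h2⟩

lemma sum_two_pow_fin (t : ℕ) : ∑ i : Fin t, 2 ^ (i : ℕ) < 2 ^ t := by
  rw [Fin.sum_univ_eq_sum_range (fun i => 2 ^ i) t]
  have := Nat.geomSum_eq (le_refl 2) t
  rw [this]
  have : 0 < 2 ^ t := by positivity
  simp only [Nat.add_one_sub_one, Nat.div_one]
  omega

lemma block_of_rep {P1 P2 Q t : ℕ} (h1 : ¬ 2 ∣ P1) (h2 : ¬ 2 ∣ P2)
    (H : ∀ n : ℕ, ∃ p : Fin t → ℕ × ℕ, (∀ i, (p i).1 ∈ P1.divisors ∧ (p i).2 ∈ P2.divisors) ∧
      (∑ i : Fin t, 2 ^ (i : ℕ) * (p i).1 * (p i).2) ≡ n [MOD Q]) :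
    Block (2 ^ t * (P1 * P2)) Q t := by
  intro n hn
  obtain ⟨p, hp, hmod⟩ := H n
  have hodd : ∀ i, ¬ 2 ∣ (p i).1 * (p i).2 := by
    intro i h
    rcases Nat.prime_two.dvd_mul.mp h with h | h
    · exact h1 (h.trans (Nat.dvd_of_mem_divisors (hp i).1))
    · exact h2 (h.trans (Nat.dvd_of_mem_divisors (hp i).2))
  have hinj : Function.Injective (fun i : Fin t => 2 ^ (i : ℕ) * ((p i).1 * (p i).2)) := by
    intro i j hij
    exact Fin.ext (two_pow_mul_odd_inj (hodd i) (hodd j) hij)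
  have hsum : ∑ d ∈ (Finset.univ : Finset (Fin t)).image
      (fun i : Fin t => 2 ^ (i : ℕ) * ((p i).1 * (p i).2)), d =
      ∑ i : Fin t, 2 ^ (i : ℕ) * (p i).1 * (p i).2 := by
    rw [Finset.sum_image (fun x _ y _ h => hinj h)]
    refine Finset.sum_congr rfl (fun i _ => by ring)
  have hle : ∑ i : Fin t, 2 ^ (i : ℕ) * (p i).1 * (p i).2 ≤ n := by
    refine le_trans ?_ hn
    calc ∑ i : Fin t, 2 ^ (i : ℕ) * (p i).1 * (p i).2
        ≤ ∑ i : Fin t, 2 ^ (i : ℕ) * (P1 * P2) := by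
          apply Finset.sum_le_sum
          intro i _
          rw [mul_assoc]
          apply Nat.mul_le_mul_left
          exact Nat.mul_le_mul (Nat.divisor_le (hp i).1) (Nat.divisor_le (hp i).2)
      _ = (∑ i : Fin t, 2 ^ (i : ℕ)) * (P1 * P2) := by rw [Finset.sum_mul]
      _ ≤ 2 ^ t * (P1 * P2) := Nat.mul_le_mul_right _ (sum_two_pow_fin t).le
  refine ⟨(Finset.univ : Finset (Fin t)).image
      (fun i : Fin t => 2 ^ (i : ℕ) * ((p i).1 * (p i).2)), ?_, ?_, ?_, ?_⟩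
  · intro d hd
    rw [Finset.mem_image] at hd
    obtain ⟨i, _, rfl⟩ := hd
    apply Nat.mul_dvd_mul
    · exact pow_dvd_pow 2 i.2.le
    · exact Nat.mul_dvd_mul (Nat.dvd_of_mem_divisors (hp i).1) (Nat.dvd_of_mem_divisors (hp i).2)
  · exact Finset.card_image_le.trans (by simp)
  · rw [hsum]; exact hle
  · rw [hsum]
    exact (Nat.modEq_iff_dvd' hle).mp hmod

/-- number of primes in a block -/
def kk (w : ℕ) : ℕ := w / (50 * (Nat.log 2 w + 1))

lemma log_bound {w : ℕ} (hw : 2 ^ 11 ≤ w) : 100 * (Nat.log 2 w + 1) ≤ w := by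
  have h1 : 11 ≤ Nat.log 2 w := Nat.le_log_of_pow_le (by norm_num) hw
  have h2 : 2 ^ Nat.log 2 w ≤ w := Nat.pow_log_le_self 2 (by omega)
  have h3 : ∀ l, 11 ≤ l → 100 * (l + 1) ≤ 2 ^ l := by
    intro l hl
    induction l, hl using Nat.le_induction with
    | base => norm_num
    | succ n hn ih => rw [pow_succ]; omega
  exact (h3 _ h1).trans h2

lemma kk_pos {w : ℕ} (hw : 2 ^ 11 ≤ w) : 0 < kk w := by
  unfold kk
  have := log_bound hw
  exact Nat.div_pos (by omega) (by omega)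

lemma kk_le (w : ℕ) : kk w ≤ w := Nat.div_le_self _ _

lemma w_le_kk {w : ℕ} (hw : 2 ^ 11 ≤ w) : w ≤ 100 * (Nat.log 2 w + 1) * kk w := by
  have h1 := kk_pos hw
  have h2 : w < 50 * (Nat.log 2 w + 1) * (kk w + 1) := by
    have := Nat.lt_mul_div_succ w (show 0 < 50 * (Nat.log 2 w + 1) by omega)
    exact this
  have h3 : 50 * (Nat.log 2 w + 1) * (kk w + 1) ≤ 50 * (Nat.log 2 w + 1) * (2 * kk w) :=
    Nat.mul_le_mul_left _ (by omega)
  calc w ≤ 50 * (Nat.log 2 w + 1) * (2 * kk w) := by omega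
    _ = _ := by ring

lemma pow_kk_le (w : ℕ) : (w ^ 24) ^ kk w ≤ 2 ^ (w / 2) := by
  have h1 : w ≤ 2 ^ (Nat.log 2 w + 1) := (Nat.lt_pow_succ_log_self (by norm_num) w).le
  calc (w ^ 24) ^ kk w = w ^ (24 * kk w) := by rw [pow_mul]
    _ ≤ (2 ^ (Nat.log 2 w + 1)) ^ (24 * kk w) := Nat.pow_le_pow_left h1 _
    _ = 2 ^ ((Nat.log 2 w + 1) * (24 * kk w)) := by rw [← pow_mul]
    _ ≤ 2 ^ (w / 2) := by
      apply Nat.pow_le_pow_right (by norm_num)
      have h2 : (50 * (Nat.log 2 w + 1)) * kk w ≤ w := Nat.mul_div_le _ _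
      have h3 : (Nat.log 2 w + 1) * (24 * kk w) = 24 * ((Nat.log 2 w + 1) * kk w) := by ring
      have h4 : 50 * ((Nat.log 2 w + 1) * kk w) ≤ w := by
        calc 50 * ((Nat.log 2 w + 1) * kk w) = (50 * (Nat.log 2 w + 1)) * kk w := by ring
          _ ≤ w := h2
      rw [h3]
      omega

lemma num_cond {w k : ℕ} (hw : 8 ≤ w) (hk : k ≤ w) :
    (49 : ℝ) ^ 4 * ((1 + (w : ℝ) ^ 32 * ((w : ℝ) ^ 32 / ((w : ℝ) ^ 24) ^ 2) ^ 4) ^ k - 1) < 1 := by
  have hw' : (8 : ℝ) ≤ w := by exact_mod_cast hw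
  have hw0 : (0 : ℝ) < w := by linarith
  have hx : (w : ℝ) ^ 32 * ((w : ℝ) ^ 32 / ((w : ℝ) ^ 24) ^ 2) ^ 4 = 1 / (w : ℝ) ^ 32 := by
    field_simp
  rw [hx]
  set x : ℝ := 1 / (w : ℝ) ^ 32 with hxdef
  have hx0 : 0 < x := by positivity
  have hkx : (k : ℝ) * x ≤ 1 / (w : ℝ) ^ 31 := by
    rw [hxdef, mul_one_div, div_le_div_iff₀ (by positivity) (by positivity)]
    have : (k : ℝ) ≤ w := by exact_mod_cast hk
    calc (k : ℝ) * (w : ℝ) ^ 31 ≤ w * (w : ℝ) ^ 31 := by gcongr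
      _ = 1 * (w : ℝ) ^ 32 := by ring
  have h31 : 1 / (w : ℝ) ^ 31 ≤ 1 / 8 ^ 31 := by
    apply one_div_le_one_div_of_le (by positivity)
    gcongr
  have h1 : (1 + x) ^ k ≤ Real.exp (k * x) := by
    calc (1 + x) ^ k ≤ (Real.exp x) ^ k := by
          apply pow_le_pow_left₀ (by positivity)
          have := Real.add_one_le_exp x; linarith
      _ = Real.exp (k * x) := by rw [← Real.exp_nat_mul]
  have h2 : k * x ≤ 1 := by
    refine hkx.trans (h31.trans ?_)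
    norm_num
  have h3 := Real.abs_exp_sub_one_le (x := k * x) (by rw [abs_of_nonneg (by positivity)]; exact h2)
  rw [abs_of_nonneg (by have := Real.add_one_le_exp (k * x); nlinarith [mul_nonneg (Nat.cast_nonneg k : (0:ℝ) ≤ k) hx0.le]), abs_of_nonneg (by positivity : (0 : ℝ) ≤ k * x)] at h3
  have h4 : (1 + x) ^ k - 1 ≤ 2 * (1 / 8 ^ 31) := by linarith
  calc (49 : ℝ) ^ 4 * ((1 + x) ^ k - 1) ≤ 49 ^ 4 * (2 * (1 / 8 ^ 31)) := by gcongr
    _ < 1 := by norm_num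

/-- Existence of one good block avoiding a given small set. -/
lemma exists_block {w : ℕ} (hw : 2 ^ 11 ≤ w) {T X : Finset ℕ} (hTc : T.card = w)
    (hT : ∀ q ∈ T, q.Prime ∧ q ≠ 2) (hTM : 2 ^ 8 * ∏ q ∈ T, q ≤ 2 ^ (w ^ 2)) (hTX : T ⊆ X)
    (hX : X.card ≤ 4 * w) :
    ∃ A : Finset ℕ, A.card = kk w ∧ (∀ q ∈ A, q.Prime ∧ q ≠ 2 ∧ q ≤ w ^ 32) ∧ Disjoint A X ∧
      Block (2 ^ 8 * ∏ q ∈ T, q) (∏ q ∈ A, q) 8 := by
  classical
  have hw8 : 8 ≤ w := le_trans (by norm_num) hw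
  obtain ⟨T1, hT1, hT1c⟩ := Finset.exists_subset_card_eq (s := T) (n := w / 2) (by omega)
  set T2 := T \ T1 with hT2
  have hT2c : w / 2 ≤ T2.card := by
    rw [hT2, Finset.card_sdiff_of_subset hT1]; omega
  set P1 := ∏ q ∈ T1, q with hP1
  set P2 := ∏ q ∈ T2, q with hP2
  have hP12 : P1 * P2 = ∏ q ∈ T, q := by
    rw [hP1, hP2, hT2, mul_comm]; exact Finset.prod_sdiff hT1
  have hT1' : ∀ q ∈ T1, q.Prime := fun q hq => (hT q (hT1 hq)).1
  have hT2' : ∀ q ∈ T2, q.Prime := fun q hq => (hT q (Finset.mem_sdiff.mp hq).1).1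
  have hP1pos : 0 < P1 := Nat.pos_of_ne_zero (Finset.prod_ne_zero_iff.mpr fun q hq => (hT1' q hq).ne_zero)
  have hP2pos : 0 < P2 := Nat.pos_of_ne_zero (Finset.prod_ne_zero_iff.mpr fun q hq => (hT2' q hq).ne_zero)
  have hodd : ∀ R : Finset ℕ, (∀ q ∈ R, q.Prime ∧ q ≠ 2) → ¬ 2 ∣ ∏ q ∈ R, q := by
    intro R hR h
    obtain ⟨q, hq, h2⟩ := (Nat.prime_two.prime.dvd_finsetProd_iff _).mp h
    exact (hR q hq).2 ((Nat.prime_dvd_prime_iff_eq Nat.prime_two (hR q hq).1).mp h2).symm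
  have hPle : P1 * P2 ≤ 2 ^ (w ^ 2) := by
    rw [hP12]; exact (Nat.le_mul_of_pos_left _ (by norm_num)).trans hTM
  have hP1le : P1 ≤ 2 ^ (w ^ 2) := (Nat.le_mul_of_pos_right _ hP2pos).trans hPle
  have hP2le : P2 ≤ 2 ^ (w ^ 2) := (Nat.le_mul_of_pos_left _ hP1pos).trans hPle
  set P := (Finset.range (w ^ 32 + 1)).filter Nat.Prime \ (insert 2 X) with hP
  have hPprime : ∀ q ∈ P, q.Prime ∧ q ≠ 2 ∧ q ≤ w ^ 32 ∧ q ∉ X := by
    intro q hq
    rw [hP, Finset.mem_sdiff, Finset.mem_filter, Finset.mem_range, Finset.mem_insert] at hq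
    refine ⟨hq.1.2, fun h => hq.2 (Or.inl h), by omega, fun h => hq.2 (Or.inr h)⟩
  have hPc := many_primes hw8 X hX
  have hk := kk_pos hw
  have hkw := kk_le w
  have hw' : (8 : ℝ) ≤ w := by exact_mod_cast hw8
  have hθ : (1 : ℝ) ≤ (w : ℝ) ^ 24 := one_le_pow₀ (by linarith)
  have hcond : (w : ℝ) ^ 24 * ((w ^ 2 : ℕ) : ℝ) * (kk w : ℝ) + (kk w : ℝ) ≤ (P.card : ℝ) := by
    refine le_trans ?_ hPc
    have : (kk w : ℝ) ≤ w := by exact_mod_cast hkw
    push_cast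
    calc (w : ℝ) ^ 24 * (w : ℝ) ^ 2 * (kk w : ℝ) + (kk w : ℝ)
        ≤ (w : ℝ) ^ 24 * (w : ℝ) ^ 2 * w + w := by gcongr
      _ = (w : ℝ) ^ 27 + w := by ring
  obtain ⟨A, hAP, hAc, hAcol⟩ := exists_modulus P1.divisors P2.divisors P ((w : ℝ) ^ 24) (w ^ 2) (kk w)
    ⟨1, Nat.one_mem_divisors.mpr hP1pos.ne'⟩ ⟨1, Nat.one_mem_divisors.mpr hP2pos.ne'⟩
    (fun u hu => (Nat.divisor_le hu).trans hP1le) (fun u hu => (Nat.divisor_le hu).trans hP2le)
    (fun q hq => (hPprime q hq).1) hθ hk hcond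
  refine ⟨A, hAc, fun q hq => ⟨(hPprime q (hAP hq)).1, (hPprime q (hAP hq)).2.1,
    (hPprime q (hAP hq)).2.2.1⟩, ?_, ?_⟩
  · rw [Finset.disjoint_left]
    intro q hq
    exact (hPprime q (hAP hq)).2.2.2
  · have hdiv : ∀ R : Finset ℕ, (∀ q ∈ R, q.Prime) → w / 2 ≤ R.card →
        ((w : ℝ) ^ 24) ^ kk w ≤ ((∏ q ∈ R, q).divisors.card : ℝ) := by
      intro R hR hRc
      rw [card_divisors_prod hR]
      have h1 := (pow_kk_le w).trans (Nat.pow_le_pow_right (by norm_num : 0 < 2) hRc)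
      exact_mod_cast h1
    rw [← hP12]
    apply block_of_rep (hodd T1 fun q hq => hT q (hT1 hq))
      (hodd T2 fun q hq => hT q (Finset.mem_sdiff.mp hq).1)
    intro n
    exact exists_rep_of_modulus (t := 4) (fun q hq => (hPprime q (hAP hq)).1)
      (fun q hq => (hPprime q (hAP hq)).2.1) ⟨1, Nat.one_mem_divisors.mpr hP1pos.ne'⟩ ⟨1, Nat.one_mem_divisors.mpr hP2pos.ne'⟩ hAc
      (fun q hq => by exact_mod_cast (hPprime q (hAP hq)).2.2.1)
      (Y := (w : ℝ) ^ 32) (one_le_pow₀ (by linarith)) hθ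
      (hdiv T1 hT1' (by omega)) (hdiv T2 hT2' hT2c) hAcol (num_cond hw8 hkw) n

end Vale.Agent.EgyptH1
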