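import Mathlib
import Vale.Agent.EgyptH1.Levels

namespace Vale.Agent.EgyptH1

open Finset

/-- a level of the construction -/
def St (w h : ℕ) : Prop :=
  ∃ T : Finset ℕ, T.card = w ∧ (∀ q ∈ T, q.Prime ∧ q ≠ 2) ∧
    2 ^ 8 * ∏ q ∈ T, q ≤ 2 ^ (w ^ 2) ∧ Good (2 ^ 8 * ∏ q ∈ T, q) h

lemma exists_blocks {w : ℕ} (hw : 2 ^ 11 ≤ w) {T : Finset ℕ} (hTc : T.card = w)
    (hT : ∀ q ∈ T, q.Prime ∧ q ≠ 2) (hTM : 2 ^ 8 * ∏ q ∈ T, q ≤ 2 ^ (w ^ 2)) :
    ∀ b : ℕ, b * kk w ≤ 3 * w → ∃ (N : Finset ℕ) (l : List ℕ), N.card = b * kk w ∧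
      (∀ q ∈ N, q.Prime ∧ q ≠ 2 ∧ q ≤ w ^ 32) ∧ Disjoint N T ∧ l.prod = ∏ q ∈ N, q ∧
      l.length = b ∧ ∀ Q ∈ l, 1 < Q ∧ Nat.Coprime Q (2 ^ 8 * ∏ q ∈ T, q) ∧
        Block (2 ^ 8 * ∏ q ∈ T, q) Q 8 := by
  intro b
  induction b with
  | zero => intro _; exact ⟨∅, [], by simp, by simp, by simp, by simp, rfl, by simp⟩
  | succ b ih =>
    intro hb
    have hb' : b * kk w ≤ 3 * w := (Nat.mul_le_mul_right _ (Nat.le_succ b)).trans hb
    obtain ⟨N, l, hNc, hN, hNT, hlN, hll, hl⟩ := ih hb'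
    obtain ⟨A, hAc, hA, hAX, hAB⟩ := exists_block hw hTc hT hTM (X := N ∪ T)
      Finset.subset_union_right
      ((Finset.card_union_le _ _).trans (by rw [hNc, hTc]; omega))
    have hAN : Disjoint A N := Finset.disjoint_of_subset_right Finset.subset_union_left hAX
    have hAT : Disjoint A T := Finset.disjoint_of_subset_right Finset.subset_union_right hAX
    refine ⟨A ∪ N, (∏ q ∈ A, q) :: l, ?_, ?_, ?_, ?_, ?_, ?_⟩
    · rw [Finset.card_union_of_disjoint hAN, hAc, hNc]; ring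
    · intro q hq
      rcases Finset.mem_union.mp hq with hq | hq
      · exact hA q hq
      · exact hN q hq
    · exact Finset.disjoint_union_left.mpr ⟨hAT, hNT⟩
    · rw [List.prod_cons, Finset.prod_union hAN, hlN]
    · rw [List.length_cons, hll]
    · intro Q hQ
      rcases List.mem_cons.mp hQ with rfl | hQ
      · refine ⟨?_, ?_, hAB⟩
        · have hne : A.Nonempty := by
            rw [← Finset.card_pos, hAc]; exact kk_pos hw
          obtain ⟨q, hq⟩ := hne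
          have h1 : q ∣ ∏ q ∈ A, q := Finset.dvd_prod_of_mem _ hq
          have h2 : 0 < ∏ q ∈ A, q :=
            Nat.pos_of_ne_zero (Finset.prod_ne_zero_iff.mpr fun q hq => (hA q hq).1.ne_zero)
          exact lt_of_lt_of_le (hA q hq).1.one_lt (Nat.le_of_dvd h2 h1)
        · apply Nat.Coprime.prod_left
          intro q hq
          apply Nat.Coprime.mul_right
          · exact Nat.Coprime.pow_right 8 ((Nat.coprime_primes (hA q hq).1 Nat.prime_two).mpr (hA q hq).2.1)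
          · apply Nat.Coprime.prod_right
            intro p hp
            exact (Nat.coprime_primes (hA q hq).1 (hT p hp).1).mpr
              (fun hh => (Finset.disjoint_left.mp hAT hq) (hh ▸ hp))
      · exact hl Q hQ

lemma St.step {w h : ℕ} (hw : 2 ^ 11 ≤ w) (H : St w h) :
    ∃ w', 2 * w ≤ w' ∧ w' ≤ 4 * w ∧ St w' (h + 808 * (Nat.log 2 w + 1)) := by
  obtain ⟨T, hTc, hT, hTM, hG⟩ := H
  set b := w / kk w + 1 with hb
  have hk := kk_pos hw
  have hkw := kk_le w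
  have hb1 : w ≤ b * kk w := by
    rw [hb, mul_comm]; exact (Nat.lt_mul_div_succ w hk).le
  have hb2 : b * kk w ≤ w + kk w := by
    rw [hb, add_mul, one_mul]
    have := Nat.div_mul_le_self w (kk w)
    omega
  have hb3 : b ≤ 100 * (Nat.log 2 w + 1) + 1 := by
    have h1 := w_le_kk hw
    have h2 : w / kk w ≤ 100 * (Nat.log 2 w + 1) := by
      apply Nat.div_le_of_le_mul
      calc w ≤ 100 * (Nat.log 2 w + 1) * kk w := h1
        _ = _ := by ring
    omega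
  obtain ⟨N, l, hNc, hN, hNT, hlN, hll, hl⟩ := exists_blocks hw hTc hT hTM b (by omega)
  have hM0 : 0 < 2 ^ 8 * ∏ q ∈ T, q := by
    have := Nat.pos_of_ne_zero (Finset.prod_ne_zero_iff.mpr fun q hq => (hT q hq).1.ne_zero)
    omega
  have hG' := good_mul_list hM0 hG l hl
  have hprod : 2 ^ 8 * ∏ q ∈ N ∪ T, q = l.prod * (2 ^ 8 * ∏ q ∈ T, q) := by
    rw [Finset.prod_union hNT, hlN]; ring
  have hcard : (N ∪ T).card = w + b * kk w := by
    rw [Finset.card_union_of_disjoint hNT, hNc, hTc]; ring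
  refine ⟨w + b * kk w, by omega, by omega, N ∪ T, hcard, ?_, ?_, ?_⟩
  · intro q hq
    rcases Finset.mem_union.mp hq with hq | hq
    · exact ⟨(hN q hq).1, (hN q hq).2.1⟩
    · exact hT q hq
  · rw [hprod, hlN]
    have h1 : ∏ q ∈ N, q ≤ 2 ^ ((Nat.log 2 w + 1) * 32 * (b * kk w)) := by
      calc ∏ q ∈ N, q ≤ ∏ _q ∈ N, w ^ 32 := Finset.prod_le_prod' (fun q hq => (hN q hq).2.2)
        _ = (w ^ 32) ^ (b * kk w) := by rw [Finset.prod_const, hNc]
        _ ≤ ((2 ^ (Nat.log 2 w + 1)) ^ 32) ^ (b * kk w) := by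
          apply Nat.pow_le_pow_left
          apply Nat.pow_le_pow_left
          exact (Nat.lt_pow_succ_log_self (by norm_num) w).le
        _ = _ := by rw [← pow_mul, ← pow_mul, mul_assoc]
    calc (∏ q ∈ N, q) * (2 ^ 8 * ∏ q ∈ T, q)
        ≤ 2 ^ ((Nat.log 2 w + 1) * 32 * (b * kk w)) * 2 ^ (w ^ 2) := Nat.mul_le_mul h1 hTM
      _ = 2 ^ ((Nat.log 2 w + 1) * 32 * (b * kk w) + w ^ 2) := (pow_add 2 _ _).symm
      _ ≤ 2 ^ ((w + b * kk w) ^ 2) := by
        apply Nat.pow_le_pow_right (by norm_num)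
        have h2 := log_bound hw
        have h3 : (Nat.log 2 w + 1) * 32 ≤ w := by omega
        have h4 : (Nat.log 2 w + 1) * 32 * (b * kk w) ≤ w * (b * kk w) := Nat.mul_le_mul_right _ h3
        nlinarith
  · rw [hprod]
    intro n hn
    refine (hG' n hn).mono dvd_rfl ?_
    rw [hll]
    omega

lemma St.base (w : ℕ) (hw : 10 ≤ w) : ∃ h, St w h := by
  obtain ⟨T, h, hTc, hT, _, hTM, hG⟩ := Vale.Agent.EgyptH1.base w
  refine ⟨h, T, hTc, hT, hTM.trans ?_, hG⟩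
  apply Nat.pow_le_pow_right (by norm_num)
  have h1 : w * (w + 3) / 2 * 2 ≤ w * (w + 3) := Nat.div_mul_le_self _ _
  nlinarith

lemma St.iter : ∃ C : ℕ, ∀ i : ℕ, ∃ w h, 2 ^ (i + 11) ≤ w ∧ w ≤ 4 ^ i * 2 ^ 11 ∧
    h ≤ C * (i + 1) ^ 2 ∧ St w h := by
  obtain ⟨h0, hh0⟩ := St.base (2 ^ 11) (by norm_num)
  refine ⟨h0 + 808 * 14, fun i => ?_⟩
  induction i with
  | zero =>
    refine ⟨2 ^ 11, h0, by norm_num, by norm_num, by nlinarith, hh0⟩
  | succ i ih =>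
    obtain ⟨w, h, h1, h2, h3, h4⟩ := ih
    have hw : 2 ^ 11 ≤ w := le_trans (Nat.pow_le_pow_right (by norm_num) (by omega)) h1
    obtain ⟨w', h5, h6, h7⟩ := h4.step hw
    refine ⟨w', h + 808 * (Nat.log 2 w + 1), ?_, ?_, ?_, h7⟩
    · calc 2 ^ (i + 1 + 11) = 2 * 2 ^ (i + 11) := by ring
        _ ≤ 2 * w := by omega
        _ ≤ w' := h5
    · calc w' ≤ 4 * w := h6
        _ ≤ 4 * (4 ^ i * 2 ^ 11) := by omega
        _ = 4 ^ (i + 1) * 2 ^ 11 := by ring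
    · have h8 : Nat.log 2 w ≤ 2 * i + 11 := by
        have h9 : w ≤ 2 ^ (2 * i + 11) := by
          calc w ≤ 4 ^ i * 2 ^ 11 := h2
            _ = (2 ^ 2) ^ i * 2 ^ 11 := by norm_num
            _ = 2 ^ (2 * i) * 2 ^ 11 := by rw [← pow_mul]
            _ = 2 ^ (2 * i + 11) := (pow_add 2 _ _).symm
        calc Nat.log 2 w ≤ Nat.log 2 (2 ^ (2 * i + 11)) := Nat.log_mono_right h9
          _ = 2 * i + 11 := Nat.log_pow (by norm_num) _
      have h10 : 808 * (Nat.log 2 w + 1) ≤ 808 * (2 * i + 12) := Nat.mul_le_mul_left _ (by omega)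
      calc h + 808 * (Nat.log 2 w + 1) ≤ (h0 + 808 * 14) * (i + 1) ^ 2 + 808 * (2 * i + 12) :=
            Nat.add_le_add h3 h10
        _ ≤ (h0 + 808 * 14) * (i + 1 + 1) ^ 2 := by nlinarith

/-- The main bound. -/
theorem main_bound : ∃ C : ℝ, ∀ b : ℕ, 16 ≤ b → ∀ a : ℕ, 1 ≤ a → a < b →
    ∃ s : Finset ℕ, (∀ n ∈ s, 2 ≤ n) ∧ ∑ n ∈ s, (1 : ℚ) / n = (a : ℚ) / b ∧
      (s.card : ℝ) ≤ C * (Real.log (Real.log b)) ^ 2 := by
  obtain ⟨C, hC⟩ := St.iter
  refine ⟨C * 50, fun b hb a ha hab => ?_⟩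
  set i := Nat.log 2 (Nat.log 2 b) with hi
  obtain ⟨w, h, h1, h2, h3, T, hTc, hT, hTM, hG⟩ := hC i
  have hbM : b ≤ 2 ^ 8 * ∏ q ∈ T, q := by
    have h4 : Nat.log 2 b < 2 ^ (i + 1) := Nat.lt_pow_succ_log_self (by norm_num) _
    have h5 : b < 2 ^ (Nat.log 2 b + 1) := Nat.lt_pow_succ_log_self (by norm_num) _
    have h6 : 2 ^ w ≤ ∏ q ∈ T, q := by
      rw [← hTc, ← Finset.prod_const]
      exact Finset.prod_le_prod' (fun q hq => (hT q hq).1.two_le)
    have h7 : Nat.log 2 b + 1 ≤ w := by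
      have : 2 ^ (i + 1) ≤ 2 ^ (i + 11) := Nat.pow_le_pow_right (by norm_num) (by omega)
      omega
    calc b ≤ 2 ^ (Nat.log 2 b + 1) := h5.le
      _ ≤ 2 ^ w := Nat.pow_le_pow_right (by norm_num) h7
      _ ≤ ∏ q ∈ T, q := h6
      _ ≤ 2 ^ 8 * ∏ q ∈ T, q := Nat.le_mul_of_pos_left _ (by norm_num)
  obtain ⟨s, hs1, hs2, hs3⟩ := egypt_of_good hG ha hab hbM
  refine ⟨s, hs2, hs3, ?_⟩
  -- numerical part
  have hb' : (16 : ℝ) ≤ b := by exact_mod_cast hb
  have hlogb : (2.7 : ℝ) ≤ Real.log b := by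
    have e1 : Real.log 16 = 4 * Real.log 2 := by
      rw [show (16 : ℝ) = 2 ^ 4 by norm_num, Real.log_pow]; norm_num
    have e2 := Real.log_two_gt_d9
    have e3 := Real.log_le_log (by norm_num) hb'
    linarith
  have hL : (0.9 : ℝ) ≤ Real.log (Real.log b) := by
    have e0 : Real.exp 0.9 ≤ 2.7 := by
      have e1 := Real.exp_bound' (x := 0.9) (by norm_num) (by norm_num) (n := 5) (by norm_num)
      refine e1.trans ?_
      norm_num [Finset.sum_range_succ, Nat.factorial]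
    have e4 := Real.log_le_log (by positivity) (e0.trans hlogb)
    rwa [Real.log_exp] at e4
  have hi1 : (i : ℝ) ≤ 2 * Real.log (Real.log b) + 1 := by
    have e1 : (2 : ℕ) ^ i ≤ Nat.log 2 b := Nat.pow_log_le_self 2 (by
      have : 4 ≤ Nat.log 2 b := Nat.le_log_of_pow_le (by norm_num) (by omega)
      omega)
    have e2 : (2 : ℕ) ^ (Nat.log 2 b) ≤ b := Nat.pow_log_le_self 2 (by omega)
    have e3 : (Nat.log 2 b : ℝ) * Real.log 2 ≤ Real.log b := by
      rw [← Real.log_pow]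
      apply Real.log_le_log (by positivity)
      exact_mod_cast e2
    have e4 : ((2 : ℝ) ^ i) ≤ Nat.log 2 b := by exact_mod_cast e1
    have hl2 := Real.log_two_gt_d9
    have e5 : (2 : ℝ) ^ i ≤ 2 * Real.log b := by nlinarith [pow_pos (show (0:ℝ) < 2 by norm_num) i]
    have e6 : (i : ℝ) * Real.log 2 ≤ Real.log 2 + Real.log (Real.log b) := by
      rw [← Real.log_pow, ← Real.log_mul (by norm_num) (by linarith)]
      exact Real.log_le_log (by positivity) e5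
    nlinarith
  have hi2 : ((i : ℝ) + 1) ≤ 5 * Real.log (Real.log b) := by linarith
  have hi3 : ((i : ℝ) + 1) ^ 2 ≤ 25 * (Real.log (Real.log b)) ^ 2 := by
    calc ((i : ℝ) + 1) ^ 2 ≤ (5 * Real.log (Real.log b)) ^ 2 := by gcongr
      _ = _ := by ring
  have hcard : (s.card : ℝ) ≤ 2 * (C * ((i : ℝ) + 1) ^ 2) := by
    have : s.card ≤ 2 * (C * (i + 1) ^ 2) := hs1.trans (Nat.mul_le_mul_left 2 h3)
    exact_mod_cast this
  calc (s.card : ℝ) ≤ 2 * (C * ((i : ℝ) + 1) ^ 2) := hcard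
    _ ≤ 2 * (C * (25 * (Real.log (Real.log b)) ^ 2)) := by gcongr
    _ = _ := by ring

end Vale.Agent.EgyptH1
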